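import Crest.Agent.R89.Key

/-! Row 89: bounds for the conjugate variables. -/

set_option autoImplicit false

namespace Crest.Agent.R89

open Crest.Agent.R95 Function W
open scoped InnerProductSpace ComplexConjugate

section Spl
variable {ι : Type*}

lemma spl_add (c c' : ι → ℂ) (φ ψ : List ι → ℂ) (l : List ι) :
    spl (fun i => c i + c' i) φ ψ l = spl c φ ψ l + spl c' φ ψ l := by
  induction l generalizing φ with
  | nil => simp
  | cons i l ih => simp only [spl_cons, ih]; ring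

lemma spl_smul (a : ℂ) (c : ι → ℂ) (φ ψ : List ι → ℂ) (l : List ι) :
    spl (fun i => a * c i) φ ψ l = a * spl c φ ψ l := by
  induction l generalizing φ with
  | nil => simp
  | cons i l ih => simp only [spl_cons, ih]; ring

lemma spl_ind [DecidableEq ι] (a : ℂ) (j : ι) (φ ψ : List ι → ℂ) (l : List ι) :
    spl (fun i => if i = j then a else 0) φ ψ l =
      a * spl (fun i => if i = j then 1 else 0) φ ψ l := by
  rw [← spl_smul]; simp

/-- The general bound given by the Schwinger–Dyson equation. -/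
lemma bd_of_sd {A : Type*} [CStarAlgebra A] [Tr A] [DecidableEq ι] (Y : ι → A) (j : ι) {N : A}
    (hN : IsSelfAdjoint N) {σ : ℝ} (hσ : 0 < σ) (hNN : τ (N * N) = σ)
    (h : SD (trL A) Y N fun i => if i = j then (σ : ℂ) else 0) : Bd Y j (1 / σ) := by
  have hσ' : (σ : ℂ) ≠ 0 := by exact_mod_cast hσ.ne'
  refine ⟨(σ : ℂ)⁻¹ • (trL A ∘ₗ LinearMap.mulLeft ℂ N), fun y => ?_, fun l => ?_⟩
  · have h1 : n2 N ^ 2 = σ := by rw [n2_sq, hN.star_eq, hNN, Complex.ofReal_re]
    have h2 := pow_le_pow_left₀ (norm_nonneg _) (norm_τ_mul_le N y) 2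
    change ‖(σ : ℂ)⁻¹ * τ (N * y)‖ ^ 2 ≤ _
    rw [norm_mul, norm_inv, Complex.norm_real, Real.norm_of_nonneg hσ.le, mul_pow]
    rw [mul_pow, h1] at h2
    calc _ ≤ σ⁻¹ ^ 2 * (σ * n2 y ^ 2) := by gcongr
      _ = _ := by field_simp
  · change _ = (σ : ℂ)⁻¹ * trL A (N * ev Y l)
    rw [h l, spl_ind (σ : ℂ), inv_mul_cancel_left₀ hσ']
    rfl

end Spl

variable {G T : Type} [Group G] {ι : Type*}

lemma τ_uA_mul (a : G) (y : Alg G T) : τ (uA a * y) = y.1 vac (nil a⁻¹) := by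
  change Lop a (y.1 vac) (nil 1) = _
  simp [mulL]

lemma val_L_vac (y : Alg G T) (z a : G) : y.1 (Lop z vac) (nil a) = y.1 vac (nil (a * z⁻¹)) := by
  rw [y.2.1.L_vac]
  simp [mulR]

lemma uA_unitary (g : G) : (uA g : Alg G T) ∈ unitary (Alg G T) := by
  rw [Unitary.mem_iff, star_uA, ← map_mul, ← map_mul]
  simp

/-- Two-sided Schwinger–Dyson equation. -/
def SD2 (Y : ι → Alg G T) (N : Alg G T) (c : ι → ℂ) : Prop :=
  ∀ (a z : G) (l : List ι), τ (N * (uA a * ev Y l * uA z)) =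
    spl c (fun b => τ (uA a * ev Y b)) (fun b => τ (ev Y b * uA z)) l

lemma SD2.sd {Y : ι → Alg G T} {N : Alg G T} {c : ι → ℂ} (h : SD2 Y N c) :
    SD (trL (Alg G T)) Y N c := fun l => by simpa using h 1 1 l

lemma SD2.add {Y : ι → Alg G T} {N N' : Alg G T} {c c' : ι → ℂ} (h : SD2 Y N c)
    (h' : SD2 Y N' c') : SD2 Y (N + N') fun i => c i + c' i := fun a z l => by
  rw [add_mul, map_add, h, h', spl_add]

lemma SD2.smul {Y : ι → Alg G T} {N : Alg G T} {c : ι → ℂ} (h : SD2 Y N c) (b : ℂ) :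
    SD2 Y (b • N) fun i => b * c i := fun a z l => by
  rw [smul_mul_assoc, map_smul, h, spl_smul, smul_eq_mul]

lemma SD2.congr {Y : ι → Alg G T} {N : Alg G T} {c c' : ι → ℂ} (h : SD2 Y N c)
    (hc : ∀ i, c i = c' i) : SD2 Y N c' := funext hc ▸ h

theorem sd2_of_der (t : T) (Y : ι → Alg G T) (c : ι → ℂ) (h : ∀ i, Der t (Y i) (c i)) :
    SD2 Y (sA t) c := by
  intro a z
  have key : ∀ (l : List ι) (X : Op G T), om (X * ran t * (ev Y l * uA z).1) =
      spl c (fun b => om (X * (ev Y b).1)) (fun b => om (ev Y b * uA z).1) l := by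
    intro l
    induction l with
    | nil =>
      intro X
      simp only [ev_nil, one_mul, uA_val, spl_nil]
      rw [mul_assoc, (comm_ran_L t z).eq]
      simp [om_apply, ran_vac]
    | cons i l ih =>
      intro X
      have e1 : X * ran t * (ev Y (i :: l) * uA z).1 =
          X * (Y i).1 * ran t * (ev Y l * uA z).1 + c i • (X * Pv * (ev Y l * uA z).1) := by
        rw [ev_cons, mul_assoc (Y i)]
        change X * ran t * ((Y i).1 * (ev Y l * uA z).1) = _
        rw [mul_assoc X, ← mul_assoc (ran t), h i]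
        simp [add_mul, mul_add, mul_assoc]
      rw [e1, map_add, ih, spl_cons, add_comm]
      congr 1
      simp [om_apply, Pv_apply, mul_comm]
  intro l
  refine Eq.trans ?_ (key l (Lop a))
  rw [← (comm_ran_L t a).eq, mul_assoc (uA a)]
  change om (Sop t * (Lop a * (ev Y l * uA z).1)) = _
  simp [om_apply, Sop, snoc]

variable {κ : T → ℂ} {x : T → G} {F : BF G} {H : Subgroup G}

open Classical in
theorem half_cut (Y : ι → Alg G T) (j : ι) (g : ι → G) (e : ι → ℂ) (Z : ι → Alg G T)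
    (hY : ∀ i, Y i = e i • (uA (g i) + uA (g i)⁻¹) + Z i) (hZ : ∀ i, Adm κ x F H (Z i).1 0)
    (hg : ∀ i, e i = 0 ∨
      (g i ∈ H ∧ ∀ γ, F.1 (γ * g i) - F.1 γ = if γ = 1 ∧ i = j then 1 else 0))
    (hj : e j ≠ 0) {v : l2 (W G T)} (hv : ∀ p ∈ Sp κ x F H, p.2 1 = ⟪v, p.1⟫_ℂ) (l : List ι) :
    ⟪v, (ev Y l * uA (g j)⁻¹).1 vac⟫_ℂ = -τ (uA (g j)⁻¹ * ev Y l) + e j *
      (spl (fun i => if i = j then 1 else 0) (fun b => τ (ev Y b)) (fun b => τ (ev Y b)) l -
        spl (fun i => if i = j then 1 else 0) (fun b => τ (uA (g j)⁻¹ * ev Y b))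
          (fun b => τ (ev Y b * uA (g j)⁻¹)) l) := by
  have hA : ∀ i, Adm κ x F H (Y i).1 (e i • (cutH F (g i) + cutH F (g i)⁻¹)) := by
    intro i
    rcases hg i with h | h
    · simpa [hY i, h] using hZ i
    · simpa [hY i] using (((adm_L h.1).add (adm_L (inv_mem h.1))).smul (e i)).add (hZ i)
  have hp : ∀ i, e i ≠ 0 → ∀ (ξ : l2 (W G T)) (X : Alg G T), cutH F (g i) ξ X.1 =
      (if i = j then 1 else 0) * (X.1 vac (nil 1) * ξ (nil (1 * g i)⁻¹)) := fun i hi ξ X =>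
    cutH_cm F (fun y => by rw [((hg i).resolve_left hi).2, ite_and]) ξ X.2.1
  have hm : ∀ i, e i ≠ 0 → ∀ (ξ : l2 (W G T)) (X : Alg G T), cutH F (g i)⁻¹ ξ X.1 =
      -(if i = j then 1 else 0) * (X.1 vac (nil (g i)) * ξ (nil (g i * (g i)⁻¹)⁻¹)) :=
    fun i hi ξ X => cutH_cm F (fun y => by
      have := ((hg i).resolve_left hi).2 (y * (g i)⁻¹)
      rw [inv_mul_cancel_right, mul_inv_eq_one, ite_and] at this
      rw [← neg_sub, this]
      split_ifs <;> simp) ξ X.2.1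
  have key : ∀ l : List ι, ∃ Φ : Du G T, ((ev Y l).1 (Lop (g j)⁻¹ vac), Φ) ∈ Sp κ x F H ∧
      ∀ X : Alg G T, Φ X.1 = -τ (uA (g j)⁻¹ * (X * ev Y l)) + e j *
        (spl (fun i => if i = j then 1 else 0) (fun b => τ (X * ev Y b)) (fun b => τ (ev Y b)) l -
          spl (fun i => if i = j then 1 else 0) (fun b => τ (uA (g j)⁻¹ * (X * ev Y b)))
            (fun b => τ (ev Y b * uA (g j)⁻¹)) l) := by
    intro l
    induction l with
    | nil =>
      refine ⟨_, mem_Sp (ω := nil (g j)⁻¹) (by simpa [jumps] using ((hg j).resolve_left hj).1),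
        fun X => ?_⟩
      rw [Gp, hm j hj]
      simp [τ_uA_mul, vac]
    | cons i l ih =>
      obtain ⟨Φ, h1, h2⟩ := ih
      refine ⟨_, by simpa [act] using hA i _ h1, fun X => ?_⟩
      have h3 := h2 (X * Y i)
      have h4 : e i * (cutH F (g i) ((ev Y l).1 (Lop (g j)⁻¹ vac)) X.1 +
          cutH F (g i)⁻¹ ((ev Y l).1 (Lop (g j)⁻¹ vac)) X.1) = e j * ((if i = j then 1 else 0) *
            (τ X * τ (ev Y l)) - (if i = j then 1 else 0) *
              (τ (uA (g j)⁻¹ * X) * τ (ev Y l * uA (g j)⁻¹))) := by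
        by_cases hi : e i = 0
        · have : i ≠ j := fun h => hj (h ▸ hi)
          simp [hi, this]
        · rw [hp i hi, hm i hi]
          by_cases hij : i = j
          · subst hij
            rw [τ_comm (ev Y l)]
            simp [val_L_vac, τ_uA_mul, τ_eq X, τ_eq (ev Y l), sub_eq_add_neg]
          · simp [hij]
      simp only [spl_cons, ev_nil, mul_one, ev_cons, ← mul_assoc X]
      change e i * cutH F (g i) _ X.1 + e i * cutH F (g i)⁻¹ _ X.1 + Φ (X * Y i).1 = _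
      rw [h3, ← mul_add, h4]
      ring
  obtain ⟨Φ, h1, h2⟩ := key l
  have := h2 1
  simp only [one_mul] at this
  rw [← this]
  exact (hv _ h1).symm

open Classical in
/-- The improved bound. -/
theorem bd_improved (Y : ι → Alg G T) (j : ι) (g : ι → G) (e : ι → ℂ) (Z : ι → Alg G T)
    (hY : ∀ i, Y i = e i • (uA (g i) + uA (g i)⁻¹) + Z i) (hZ : ∀ i, Adm κ x F H (Z i).1 0)
    (hg : ∀ i, e i = 0 ∨
      (g i ∈ H ∧ ∀ γ, F.1 (γ * g i) - F.1 γ = if γ = 1 ∧ i = j then 1 else 0))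
    (hj : e j = 1 / 2) {v : l2 (W G T)} (hv : ∀ p ∈ Sp κ x F H, p.2 1 = ⟪v, p.1⟫_ℂ) {M : ℝ}
    (hM : ‖v‖ ≤ M) {N : Alg G T} (hN : IsSelfAdjoint N) {σ : ℝ} (hσ : 0 < σ)
    (hNY : SD2 Y N fun i => if i = j then (σ : ℂ) else 0)
    (hNN : SD2 (fun _ : Unit => N) N fun _ => (σ : ℂ)) :
    Bd Y j (3 * (M + 1) ^ 2 + 3 / (4 * σ)) := by
  have hσ' : (σ : ℂ) ≠ 0 := by exact_mod_cast hσ.ne'
  have hj0 : e j ≠ 0 := by rw [hj]; norm_num
  have hg1 : g j ≠ 1 := fun h => by
    have := ((hg j).resolve_left hj0).2 1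
    simp [h] at this
  set w : Alg G T := uA (g j)⁻¹ with hw
  have hwu : w ∈ unitary (Alg G T) := uA_unitary _
  set N' := N + w * N * w with hN'
  have hNN' : ∀ a z : G, τ (N * (uA a * N * uA z)) = σ * (τ (uA a : Alg G T) * τ (uA z : Alg G T)) :=
    fun a z => by simpa [spl_cons] using hNN a z [()]
  have hn : n2 N' ^ 2 = 2 * σ := by
    have e1 : star N' * N' = N * (uA 1 * N * uA 1) + N * (w * N * w) +
        uA (g j) * (N * uA (g j) * N) + uA (g j) * (N * N * w) := by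
      have : uA (g j) * w = 1 := by rw [hw, ← map_mul]; simp
      simp only [hN', star_add, star_mul, hN.star_eq, hw, star_uA, inv_inv, map_one, one_mul,
        mul_one, add_mul, mul_add]
      rw [← hw]
      have e2 : uA (g j) * (N * uA (g j)) * (w * N * w) = uA (g j) * (N * N * w) := by
        calc _ = uA (g j) * (N * (uA (g j) * w) * N * w) := by simp only [mul_assoc]
          _ = _ := by rw [this, mul_one]
      rw [e2]
      simp only [mul_assoc]
      abel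
    have e3 : τ (uA (g j) * (N * uA (g j) * N)) = τ (N * (uA (g j) * N * uA (g j))) := by
      rw [τ_comm]; simp only [mul_assoc]
    have e4 : τ (uA (g j) * (N * N * w)) = τ (N * (uA 1 * N * uA 1)) := by
      rw [τ_comm, mul_assoc _ w, hw, ← map_mul]; simp
    rw [n2_sq, e1, map_add, map_add, map_add, e3, e4, hw, hNN', hNN', hNN']
    simp [τ_uA, hg1, τ_one]
    ring
  let Λ : Alg G T →ₗ[ℂ] ℂ :=
    { toFun := fun y => ⟪v, (y * w).1 vac⟫_ℂ + τ (w * y) + (2 * σ : ℂ)⁻¹ * τ (N' * y)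
      map_add' := fun y z => by
        have : ((y + z) * w).1 vac = (y * w).1 vac + (z * w).1 vac := by rw [add_mul]; rfl
        simp only [this, inner_add_right, mul_add, map_add]; ring
      map_smul' := fun b y => by
        have : ((b • y) * w).1 vac = b • (y * w).1 vac := by rw [smul_mul_assoc]; rfl
        simp only [this, inner_smul_right, mul_smul_comm, map_smul, smul_eq_mul, RingHom.id_apply]
        ring }
  refine ⟨Λ, fun y => ?_, fun l => ?_⟩
  · have h1 : ‖⟪v, (y * w).1 vac⟫_ℂ‖ ≤ M * n2 y := by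
      refine (norm_inner_le_norm _ _).trans ?_
      rw [← n2_eq, n2_mul_unitary hwu]
      exact mul_le_mul_of_nonneg_right hM (n2_nonneg _)
    have h2 : ‖τ (w * y)‖ ≤ n2 y := by simpa [n2_unitary hwu] using norm_τ_mul_le w y
    have h3 : ‖(2 * σ : ℂ)⁻¹ * τ (N' * y)‖ ^ 2 ≤ 1 / (2 * σ) * n2 y ^ 2 := by
      have h4 := pow_le_pow_left₀ (norm_nonneg _) (norm_τ_mul_le N' y) 2
      rw [mul_pow, hn] at h4
      rw [norm_mul, norm_inv, norm_mul, Complex.norm_real, Real.norm_of_nonneg hσ.le, mul_pow,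
        Complex.norm_two]
      calc _ ≤ (2 * σ)⁻¹ ^ 2 * (2 * σ * n2 y ^ 2) := by gcongr
        _ = _ := by field_simp
    have h5 : ‖Λ y‖ ≤ (M + 1) * n2 y + ‖(2 * σ : ℂ)⁻¹ * τ (N' * y)‖ :=
      (norm_add_le _ _).trans (by linarith [norm_add_le ⟪v, (y * w).1 vac⟫_ℂ (τ (w * y))])
    have h6 := pow_le_pow_left₀ (norm_nonneg _) h5 2
    have h7 : 3 / (4 * σ) = 3 / 2 * (1 / (2 * σ)) := by field_simp; norm_num
    rw [h7]
    nlinarith [sq_nonneg (2 * ((M + 1) * n2 y) - ‖(2 * σ : ℂ)⁻¹ * τ (N' * y)‖)]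
  · change _ = ⟪v, (ev Y l * w).1 vac⟫_ℂ + τ (w * ev Y l) + (2 * σ : ℂ)⁻¹ * τ (N' * ev Y l)
    have h1 := hNY 1 1 l
    have h2 := hNY (g j)⁻¹ (g j)⁻¹ l
    simp only [map_one, one_mul, mul_one] at h1
    have h3 : τ (w * N * w * ev Y l) = τ (N * (w * ev Y l * w)) := by
      rw [mul_assoc w, mul_assoc w, τ_comm]; simp only [mul_assoc]
    rw [hw, half_cut Y j g e Z hY hZ hg hj0 hv l, hN', add_mul, map_add, h3, hw, h1, h2,
      spl_ind (σ : ℂ), spl_ind (σ : ℂ), hj]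
    field_simp
    ring

end Crest.Agent.R89
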