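import Crest.Agent.R89.Vars
import Crest.Agent.R89.VolUp

/-! Row 89: the visible variables are almost polynomials in the hidden ones. -/

set_option autoImplicit false

namespace Crest.Agent.R89

open Crest.OpAlg Crest.Agent.R95 Function
open scoped ComplexConjugate

/-- Indices of the variables: hidden (real and imaginary parts of the generators), visible. -/
abbrev V : Type := (J × Bool) ⊕ I

/-- Group elements. -/
def xg : V → Γ
  | .inl p => FreeGroup.of p.1
  | .inr k => gI k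

/-- Coefficients. -/
noncomputable def ag (ε : ℝ) : V → ℂ
  | .inl (_, true) => ε / 2
  | .inl (_, false) => -(ε / 2) * Complex.I
  | .inr _ => 1 / 2

/-- Sizes of the noise. -/
noncomputable def αg (ε r : ℝ) : V → ℝ
  | .inl _ => ε * r
  | .inr _ => r

section PP
variable {R R' : Type*} [Ring R] [Algebra ℂ R] [Ring R'] [Algebra ℂ R'] (ε : ℝ)

/-- `(Z_re + c Z_im) / ε`. -/
noncomputable def wv (c : ℂ) (M : V → R) (a : J) : R :=
  (ε⁻¹ : ℂ) • (M (.inl (a, true)) + c • M (.inl (a, false)))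

/-- The approximating polynomials. -/
noncomputable def PP (M : V → R) : V → R
  | .inl _ => 0
  | .inr k => (1 / 2 : ℂ) •
      (wv ε Complex.I M (.inl k.1) * wv ε Complex.I M (.inr (.inl (pt k.1 k.2))) *
          wv ε Complex.I M (.inr (.inr k.1)) +
        wv ε (-Complex.I) M (.inr (.inr k.1)) *
          (wv ε (-Complex.I) M (.inr (.inl (pt k.1 k.2))) * wv ε (-Complex.I) M (.inl k.1)))

lemma map_PP (φ : R →ₐ[ℂ] R') (M : V → R) (v : V) :
    φ (PP ε M v) = PP ε (fun w => φ (M w)) v := by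
  cases v <;> simp [PP, wv]

lemma PP_congr {M M' : V → R} (h : ∀ p, M (.inl p) = M' (.inl p)) (v : V) :
    PP ε M v = PP ε M' v := by
  cases v <;> simp [PP, wv, h]

variable [StarRing R] [StarModule ℂ R]

lemma star_wv (c : ℂ) {M : V → R} (h : ∀ v, IsSelfAdjoint (M v)) (a : J) :
    star (wv ε c M a) = wv ε (conj c) M a := by
  simp [wv, (h _).star_eq]

lemma PP_sa {M : V → R} (h : ∀ v, IsSelfAdjoint (M v)) (v : V) : IsSelfAdjoint (PP ε M v) := by
  cases v with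
  | inl => exact IsSelfAdjoint.zero _
  | inr k =>
    refine IsSelfAdjoint.smul (by simp [IsSelfAdjoint]) ?_
    simp [IsSelfAdjoint, star_wv ε _ h, add_comm, mul_assoc]

end PP

lemma norm_prod3_sub {R : Type*} [NormedRing R] {u₁ u₂ u₃ w₁ w₂ w₃ : R} {δ : ℝ}
    (h₁ : ‖u₁‖ ≤ 1) (h₂ : ‖u₂‖ ≤ 1) (h₃ : ‖u₃‖ ≤ 1) (k₁ : ‖u₁ - w₁‖ ≤ δ) (k₂ : ‖u₂ - w₂‖ ≤ δ)
    (k₃ : ‖u₃ - w₃‖ ≤ δ) (hδ : δ ≤ 4) : ‖u₁ * u₂ * u₃ - w₁ * w₂ * w₃‖ ≤ 31 * δ := by
  have hw : ∀ {u w : R}, ‖u‖ ≤ 1 → ‖u - w‖ ≤ δ → ‖w‖ ≤ 5 := fun {u w} h k => by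
    have := norm_sub_le u (u - w)
    rw [sub_sub_cancel] at this
    linarith
  have h0 : 0 ≤ δ := (norm_nonneg _).trans k₁
  have e : u₁ * u₂ * u₃ - w₁ * w₂ * w₃ =
      (u₁ - w₁) * u₂ * u₃ + w₁ * (u₂ - w₂) * u₃ + w₁ * w₂ * (u₃ - w₃) := by noncomm_ring
  have b : ∀ {x y z : R} {p q s : ℝ}, ‖x‖ ≤ p → ‖y‖ ≤ q → ‖z‖ ≤ s → ‖x * y * z‖ ≤ p * q * s :=
    fun hx hy hz => norm_mul_le_of_le (norm_mul_le_of_le hx hy) hz
  rw [e]
  linarith [norm_add₃_le (a := (u₁ - w₁) * u₂ * u₃) (b := w₁ * (u₂ - w₂) * u₃)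
    (c := w₁ * w₂ * (u₃ - w₃)), b k₁ h₂ h₃, b (hw h₁ k₁) k₂ h₃, b (hw h₁ k₁) (hw h₂ k₂) k₃]

variable {n : ℕ} (e : Fin n ≃ V) (ε r : ℝ)

/-- The tuple. -/
noncomputable def XX : Fin n → Alg Γ (Fin n × Option Bool) :=
  Xn (fun i => ag ε (e i)) (fun i => xg (e i)) fun i => αg ε r (e i)

lemma norm_XX_sub (hε : 0 < ε) (hr : 0 ≤ r) (hr1 : r ≤ 1) (v : V) :
    ‖XX e ε r (e.symm v) - PP ε (fun w => XX e ε r (e.symm w)) v‖ ≤
      v.elim (fun _ => 3 * ε) fun _ => 126 * r := by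
  have hC : ∀ i, ‖(Cn i : Alg Γ (Fin n × Option Bool))‖ ≤ 2 := fun i => norm_sA_le _
  have hX : ∀ w, XX e ε r (e.symm w) = Bn (ag ε w) (xg w) + (αg ε r w : ℂ) • Cn (e.symm w) :=
    fun w => by simp [XX, Xn]
  have hε' : (ε : ℂ) ≠ 0 := by exact_mod_cast hε.ne'
  cases v with
  | inl p =>
    have h1 : ‖ag ε (.inl p)‖ = ε / 2 := by
      obtain ⟨a, _ | _⟩ := p <;> simp [ag, abs_of_pos hε]
    simp only [PP, sub_zero, hX, Sum.elim_inl]
    refine (norm_add_le _ _).trans ?_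
    rw [norm_smul, Complex.norm_real, αg, Real.norm_of_nonneg (by positivity)]
    have := norm_Bn_le (T := Fin n × Option Bool) (ag ε (.inl p)) (xg (.inl p))
    have h2 : ε * r * ‖(Cn (e.symm (.inl p)) : Alg Γ (Fin n × Option Bool))‖ ≤ ε * 1 * 2 := by
      gcongr
      exact hC _
    linarith
  | inr k =>
    have hsa : ∀ w, IsSelfAdjoint (XX e ε r (e.symm w)) := fun w => Xn_sa _ _ _ _
    have hw : ∀ a, ‖uA (FreeGroup.of a) - wv ε Complex.I (fun w => XX e ε r (e.symm w)) a‖ ≤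
        4 * r := fun a => by
      have : uA (FreeGroup.of a) - wv ε Complex.I (fun w => XX e ε r (e.symm w)) a =
          -((r : ℂ) • (Cn (e.symm (.inl (a, true))) +
            Complex.I • Cn (e.symm (.inl (a, false))))) := by
        simp only [wv, hX, Bn, ag, αg, xg, map_mul, map_neg, map_div₀, Complex.conj_ofReal,
          Complex.conj_I, map_ofNat, Complex.ofReal_mul]
        match_scalars <;> field_simp <;> norm_num [Complex.I_sq]
      rw [this, norm_neg, norm_smul, Complex.norm_real, Real.norm_of_nonneg hr, mul_comm]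
      gcongr
      refine (norm_add_le _ _).trans ?_
      rw [norm_smul, Complex.norm_I, one_mul]
      linarith [hC (e.symm (.inl (a, true))), hC (e.symm (.inl (a, false)))]
    have h3 := norm_prod3_sub (norm_uA_le _) (norm_uA_le _) (norm_uA_le _) (hw (.inl k.1))
      (hw (.inr (.inl (pt k.1 k.2)))) (hw (.inr (.inr k.1))) (by linarith)
    rw [← map_mul, ← map_mul] at h3
    set D := uA (gI k) - wv ε Complex.I (fun w => XX e ε r (e.symm w)) (.inl k.1) *
      wv ε Complex.I (fun w => XX e ε r (e.symm w)) (.inr (.inl (pt k.1 k.2))) *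
      wv ε Complex.I (fun w => XX e ε r (e.symm w)) (.inr (.inr k.1)) with hD
    have h4 : XX e ε r (e.symm (.inr k)) - PP ε (fun w => XX e ε r (e.symm w)) (.inr k) =
        (1 / 2 : ℂ) • (D + star D) + (r : ℂ) • Cn (e.symm (.inr k)) := by
      rw [hD, star_sub, star_mul, star_mul, star_wv ε _ hsa, star_wv ε _ hsa, star_wv ε _ hsa,
        star_uA, Complex.conj_I, hX (.inr k)]
      simp only [PP, Bn, ag, αg, xg, map_div₀, map_one, map_ofNat]
      module
    have h5 : ‖D‖ ≤ 31 * (4 * r) := h3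
    rw [h4, Sum.elim_inr]
    refine (norm_add_le _ _).trans ?_
    rw [norm_smul, norm_smul, Complex.norm_real, Real.norm_of_nonneg hr]
    have h6 := norm_add_le D (star D)
    rw [norm_star] at h6
    have h7 : ‖(1 / 2 : ℂ)‖ = 1 / 2 := by simp
    rw [h7]
    nlinarith [hC (e.symm (.inr k))]

theorem chi_XX_le (hε : 0 < ε) (hr : 0 < r) (hr1 : r ≤ 1) : chi (trL _) (XX e ε r) ≤
    ((∑ j, 1 / 2 * Real.log (2 * Real.pi * Real.exp 1 *
      (e j).elim (fun _ => (4 * ε) ^ 2) fun _ => (127 * r) ^ 2) : ℝ) : EReal) := by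
  let P : Fin n → NCPoly n := fun j =>
    PP ε (fun w => MonoidAlgebra.of ℂ _ (FreeMonoid.of (e.symm w))) (e j)
  have hP : ∀ {R : Type} [Ring R] [Algebra ℂ R] (M : Fin n → R) (j : Fin n),
      polyEval M (P j) = PP ε (fun w => M (e.symm w)) (e j) := fun M j => by
    simp [polyEval, P, map_PP]
  refine chi_le _ _ (fun i => (e i).isLeft) P (fun i hi => ?_) (fun d M M' h j => ?_)
    (fun d M h j => ?_) _ (fun j => ?_) fun j => ?_
  · obtain ⟨p, hp⟩ := Sum.isLeft_iff.mp hi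
    simp [P, hp, PP]
  · rw [hP, hP]
    exact PP_congr ε (fun p => h _ (by simp)) _
  · rw [hP]
    exact PP_sa ε (fun v => h _) _
  · cases e j <;> simp <;> positivity
  · have h1 := norm_XX_sub e ε r hε hr.le hr1 (e j)
    rw [hP, e.symm_apply_apply] at *
    refine ((Complex.re_le_norm _).trans ((norm_τ_le _).trans
      (norm_mul_le_of_le h1 h1))).trans_lt ?_
    cases e j <;> simp <;> nlinarith

end Crest.Agent.R89
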