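import Crest.Agent.R89.GUE
import Crest.Agent.R89.OpNorm

/-! Row 89: the microstates entropy is finite. -/

set_option autoImplicit false

namespace Crest.Agent.R89

open Crest.OpAlg MeasureTheory
open scoped ComplexConjugate

open ProbabilityTheory in
lemma vl_gauss (s : Set ℝ) : gaussianReal 0 1 s ≤ volume s := by
  have : gaussianReal 0 1 ≤ volume := by
    rw [gaussianReal_of_var_ne_zero _ one_ne_zero]
    refine (withDensity_mono (ae_of_all _ fun x => ?_)).trans_eq withDensity_one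
    refine ENNReal.ofReal_le_one.2 (mul_le_one₀ (inv_le_one_of_one_le₀ ?_) (Real.exp_pos _).le ?_)
    · exact Real.one_le_sqrt.2 (by simp only [NNReal.coe_one]; linarith [Real.pi_gt_three])
    · exact Real.exp_le_one_iff.2 (div_nonpos_of_nonpos_of_nonneg (neg_nonpos.2 (sq_nonneg _))
        (by positivity))
  exact this s

lemma vl_vol {σ : Type} [Fintype σ] (x c : σ → ℝ) (hc : ∀ p, 0 < c p)
    (S : Set (EuclideanSpace ℝ σ)) :
    ENNReal.ofReal (∏ p, c p) * gam σ {ξ | WithLp.toLp 2 (fun p => x p + c p * ξ p) ∈ S} ≤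
      volume S := by
  have h : ENNReal.ofReal (∏ p, c p) • OuterMeasure.map (fun (ξ : σ → ℝ) p => x p + c p * ξ p)
      (gam σ).toOuterMeasure ≤ OuterMeasure.pi fun _ : σ => (volume : Measure ℝ).toOuterMeasure := by
    refine OuterMeasure.le_pi.2 fun s _ => ?_
    have e : (fun (ξ : σ → ℝ) p => x p + c p * ξ p) ⁻¹' Set.univ.pi s =
        Set.univ.pi fun p => (c p * ·) ⁻¹' ((x p + ·) ⁻¹' s p) := rfl
    simp only [smul_apply, OuterMeasure.map_apply, e, Measure.toOuterMeasure_apply, gam,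
      Measure.pi_pi, smul_eq_mul]
    rw [ENNReal.ofReal_prod_of_nonneg fun p _ => (hc p).le, ← Finset.prod_mul_distrib]
    refine Finset.prod_le_prod' fun p _ => (mul_le_mul_right (vl_gauss _) _).trans_eq ?_
    rw [Real.volume_preimage_mul_left (hc p).ne', measure_preimage_add, ← mul_assoc,
      ← ENNReal.ofReal_mul (hc p).le, abs_of_pos (inv_pos.2 (hc p)), mul_inv_cancel₀ (hc p).ne']
    simp
  refine (h (WithLp.toLp 2 ⁻¹' S)).trans (le_trans ?_ ((Measure.le_map_apply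
    (PiLp.volume_preserving_toLp σ).aemeasurable S).trans_eq
    (by rw [(PiLp.volume_preserving_toLp σ).map_eq])))
  rw [volume_pi, Measure.pi_def]
  exact le_toMeasure_apply _ _ _

lemma vl_tuple {n d : ℕ} (α : Fin n → ℝ) {b : Fin n → Matrix (Fin d) (Fin d) ℂ}
    (hb : ∀ i, (b i).IsHermitian) (ξ : Fin n × (Fin d × Fin d) → ℝ) :
    matrixTuple (WithLp.toLp 2 fun p : Fin n × (Fin d × Fin d) =>
      coords (b p.1) p.2 + α p.1 / Real.sqrt d * ξ p) = Zm α b ξ := by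
  funext i
  rw [Zm, Gm, ← herm_smul, ← herm_coords (hb i), ← herm_add]
  rfl

lemma vl_log {n d : ℕ} (hd : 1 ≤ d) {α : Fin n → ℝ} (hα : ∀ i, 0 < α i) {v : ENNReal}
    (h : ENNReal.ofReal (∏ p : Fin n × (Fin d × Fin d), α p.1 / Real.sqrt d) * (1 / 2) ≤ v) :
    ((∑ i, Real.log (α i) - 1 : ℝ) : EReal) ≤
      ((((d : ℝ) ^ 2)⁻¹ : ℝ) : EReal) * v.log + (((n : ℝ) / 2 * Real.log d : ℝ) : EReal) := by
  have hd1 : (1 : ℝ) ≤ d := by exact_mod_cast hd
  have hd0 : (0 : ℝ) < d := by linarith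
  have hp : ∀ i, 0 < α i / Real.sqrt d := fun i => div_pos (hα i) (Real.sqrt_pos.2 hd0)
  have h0 : 0 < ∏ p : Fin n × (Fin d × Fin d), α p.1 / Real.sqrt d :=
    Finset.prod_pos fun p _ => hp _
  rw [show (1 / 2 : ENNReal) = ENNReal.ofReal (1 / 2) by simp, ← ENNReal.ofReal_mul h0.le] at h
  have h1 := ENNReal.log_monotone h
  rw [ENNReal.log_ofReal_of_pos (by positivity)] at h1
  refine le_trans ?_ (add_le_add_left (mul_le_mul_of_nonneg_left h1
    (EReal.coe_nonneg.2 (by positivity))) _)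
  rw [← EReal.coe_mul, ← EReal.coe_add, EReal.coe_le_coe_iff, Real.log_mul h0.ne' (by norm_num),
    Real.log_prod fun p _ => (hp _).ne', Fintype.sum_prod_type]
  simp only [Real.log_div (hα _).ne' (Real.sqrt_pos.2 hd0).ne', Real.log_sqrt hd0.le,
    Finset.sum_const, Finset.card_univ, Fintype.card_prod, Fintype.card_fin, nsmul_eq_mul,
    ← Finset.mul_sum, Finset.sum_sub_distrib, one_div, Real.log_inv, Nat.cast_mul]
  have h2 : ((d : ℝ) ^ 2)⁻¹ * Real.log 2 ≤ 1 :=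
    mul_le_one₀ (inv_le_one_of_one_le₀ (one_le_pow₀ hd1)) (Real.log_nonneg one_le_two)
      (by linarith [Real.log_two_lt_d9])
  have h3 : ((d : ℝ) ^ 2)⁻¹ * (d * d) = 1 := by field_simp
  rw [mul_add, ← mul_assoc, h3]
  linarith

theorem bot_lt_chi {A : Type*} [Ring A] [StarRing A] [Algebra ℂ A] [StarModule ℂ A]
    (τ : A →ₗ[ℂ] ℂ) (hc : ∀ x y, τ (x * y) = τ (y * x)) (hs : ∀ x, τ (star x) = conj (τ x))
    {n : ℕ} (B C : Fin n → A) (α : Fin n → ℝ) (hα : ∀ i, 0 < α i)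
    (hB : ∀ i, IsSelfAdjoint (B i)) (hC : ∀ i, IsSelfAdjoint (C i))
    (hsd : ∀ i, SD τ (Sum.elim B fun k => B k + (α k : ℂ) • C k) (C i)
      fun z => if z = Sum.inr i then (α i : ℂ) else 0) (R₀ : ℝ)
    (hm : ∀ L N : ℕ, ∃ d : ℕ, N ≤ d ∧ ∃ b : Fin n → Matrix (Fin d) (Fin d) ℂ,
      (∀ i, (b i).IsHermitian) ∧
      (∀ i, ‖Matrix.toEuclideanCLM (n := Fin d) (𝕜 := ℂ) (b i)‖ ≤ R₀) ∧
      ∀ l : List (Fin n), l.length ≤ L → (d : ℂ)⁻¹ * Matrix.trace (ev b l) = τ (ev B l)) :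
    ⊥ < chi τ fun k => B k + (α k : ℂ) • C k := by
  obtain ⟨R, hR0, hR⟩ := gue_opnorm n
  have hsα : 0 ≤ ∑ i, α i := Finset.sum_nonneg fun i _ => (hα i).le
  refine (EReal.bot_lt_coe (∑ i, Real.log (α i) - 1)).trans_le (le_iSup₂_of_le
    (|R₀| + (∑ i, α i) * R + 1) (by positivity) (le_iInf fun m => le_iInf₂ fun ε hε => ?_))
  choose K hK using gue_moment τ hc hs B C α hB hC hsd
  obtain ⟨W, hW⟩ : ∃ W : Finset (List (Fin n)), ∀ w, w ∈ W ↔ w.length ≤ m :=
    ⟨(List.finite_length_le (Fin n) m).toFinset, fun w => by simp⟩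
  refine Filter.le_limsup_of_frequently_le' (Filter.frequently_atTop.2 fun N => ?_)
  obtain ⟨d, hd, b, hb1, hb2, hb3⟩ := hm (2 * m) (max N (⌈4 * (∑ w ∈ W, |K w|) / ε ^ 2⌉₊ + 1))
  obtain ⟨hN, hd⟩ := max_le_iff.1 hd
  have hd1 : 1 ≤ d := by omega
  have hd0 : (0 : ℝ) < d := by exact_mod_cast hd1
  have hsq := Real.sqrt_pos.2 hd0
  refine ⟨d, hN, vl_log hd1 hα (le_trans (mul_le_mul_right ?_ _) (vl_vol
    (fun p => coords (b p.1) p.2) _ (fun p => div_pos (hα _) hsq) _))⟩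
  simp only [microstates, Set.mem_ofPred_eq, vl_tuple α hb1]
  have h1 : gam _ (⋃ w ∈ W, {ξ | ε ≤ ‖(d : ℂ)⁻¹ * Matrix.trace (ev (Zm α b ξ) w) -
      τ (ev (fun k => B k + (α k : ℂ) • C k) w)‖}) ≤ 1 / 4 := by
    refine (measure_biUnion_finset_le _ _).trans ((Finset.sum_le_sum (g := fun w =>
      ENNReal.ofReal (|K w| / (d ^ 2 * ε ^ 2))) fun w hw => ?_).trans ?_)
    · refine (hK w d hd1 b hb1 (fun l hl => hb3 l (by have := (hW w).1 hw; omega)) ε hε).trans ?_
      gcongr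
      exact le_abs_self _
    · rw [← ENNReal.ofReal_sum_of_nonneg fun w _ => by positivity, ← Finset.sum_div,
        show (1 / 4 : ENNReal) = ENNReal.ofReal (1 / 4) by simp]
      refine ENNReal.ofReal_le_ofReal ?_
      have h2 : 4 * (∑ w ∈ W, |K w|) / ε ^ 2 ≤ d :=
        (Nat.le_ceil _).trans (by exact_mod_cast (Nat.le_succ _).trans hd)
      have h3 : (d : ℝ) ≤ d ^ 2 := le_self_pow₀ (by exact_mod_cast hd1) two_ne_zero
      have h4 := (div_le_iff₀ (by positivity)).1 (h2.trans h3)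
      rw [div_le_iff₀ (by positivity)]
      linarith
  have h2 := (measure_union_le _ _).trans (add_le_add (hR d) h1)
  have h3 := (measure_univ_le_add_compl (μ := gam _) _).trans (add_le_add_left h2 _)
  rw [measure_univ, show (1 / 4 + 1 / 4 : ENNReal) = 1 / 2 by
    rw [ENNReal.div_add_div_same, ENNReal.div_eq_div_iff] <;> norm_num, ← tsub_le_iff_left,
    ENNReal.sub_half ENNReal.one_ne_top] at h3
  refine h3.trans (measure_mono fun ξ hξ => ?_)
  simp only [Set.mem_compl_iff, Set.mem_union, Set.mem_iUnion, Set.mem_ofPred_eq, not_or, not_exists,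
    not_lt, not_le] at hξ
  refine ⟨fun i => ?_, fun w hw => ?_⟩
  · rw [Zm, map_add, map_smul]
    refine (norm_add_le _ _).trans ?_
    rw [norm_smul, Complex.norm_real, Real.norm_of_nonneg (div_pos (hα i) hsq).le]
    have h4 := mul_le_mul_of_nonneg_left (hξ.1 i) (div_pos (hα i) hsq).le
    have h5 : α i / Real.sqrt d * (R * Real.sqrt d) = α i * R := by field_simp
    have h6 := mul_le_mul_of_nonneg_right
      (Finset.single_le_sum (fun i _ => (hα i).le) (Finset.mem_univ i)) hR0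
    linarith [hb2 i, le_abs_self R₀]
  · rw [matrixMoment, wordEval_eq, wordEval_eq]
    exact hξ.2 _ ((hW _).2 hw)

end Crest.Agent.R89
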