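import Crest.Prelude.Def_CStarRep
import Crest.Agent.R89.Poly
import Crest.Agent.R89.VolLow
import Crest.Agent.R89.Model
import Crest.Agent.R89.FreeSD
import Crest.Agent.R89.Fisher

/-! Row 89: assembly. -/

set_option autoImplicit false

namespace Crest.Agent.R89

open Crest.OpAlg Crest.Agent.R95 Function MeasureTheory
open scoped ComplexConjugate

lemma card_hid : Fintype.card (J × Bool) = 5046 := by simp [ZMod.card]

lemma card_vis : Fintype.card I = 24389 := by simp [ZMod.card]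

lemma sum_V {n : ℕ} (e : Fin n ≃ V) (φ : V → ℝ) (p q : ℝ) (hp : ∀ a, φ (.inl a) = p)
    (hq : ∀ a, φ (.inr a) = q) : ∑ i, φ (e i) = 5046 * p + 24389 * q := by
  rw [Equiv.sum_comp e φ, Fintype.sum_sum_type]
  simp only [hp, hq, Finset.sum_const, Finset.card_univ, card_hid, card_vis, nsmul_eq_mul]
  norm_num

lemma exists_vis {n : ℕ} (e : Fin n ≃ V) :
    ∃ vis : Finset (Fin n), (∀ i, i ∈ vis ↔ ∃ k, e i = .inr k) ∧ (vis.card : ℝ) = 24389 := by
  refine ⟨Finset.univ.map ⟨fun k : I => e.symm (.inr k),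
    e.symm.injective.comp Sum.inr_injective⟩, fun i => ?_, ?_⟩
  · simp only [Finset.mem_map, Finset.mem_univ, true_and, Embedding.coeFn_mk,
      Equiv.symm_apply_eq]
    exact exists_congr fun _ => eq_comm
  · rw [Finset.card_map, Finset.card_univ, card_vis]
    norm_num

theorem main_aux {n : ℕ} (e : Fin n ≃ V) :
    ∃ (A : Type) (_ : CStarAlgebra A) (τ : A →ₗ[ℂ] ℂ) (X S : Fin n → A),
      IsFaithfulTracialState τ ∧ (∀ i, IsSelfAdjoint (X i)) ∧
      IsStandardSemicircular τ S ∧ IsFreeFamily τ (withNoise X S) ∧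
      (∀ s : ℝ, 0 < s → freeFisher τ (heatTuple X S s) < ⊤) ∧
      IntegrableOn (fun s : ℝ => (n : ℝ) / (1 + s) - (freeFisher τ (heatTuple X S s)).toReal)
        (Set.Ioi 0) ∧
      ⊥ < chi τ X ∧ chi τ X ≤ ((chiStar τ X S - 1 / 2 : ℝ) : EReal) := by
  classical
  obtain ⟨θ, hθ, M, hM⟩ := comb (xT fun i => xg (e i))
  set C : ℝ := 3 * (M + 1) ^ 2 with hC
  have hC0 : 0 ≤ C := by positivity
  have l2 : 0 ≤ Real.log 2 := Real.log_nonneg (by norm_num)
  have l4 : 0 ≤ Real.log 4 := Real.log_nonneg (by norm_num)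
  have l127 : 0 ≤ Real.log 127 := Real.log_nonneg (by norm_num)
  set L : ℝ := 1 + 24389 * (C + Real.log 2 + 2 * Real.log 127 + 2 * Real.log 4) with hL
  have hL0 : 0 ≤ L := by positivity
  set r : ℝ := Real.exp (-L) with hr
  have hr0 : 0 < r := Real.exp_pos _
  have hr1 : r ≤ 1 := Real.exp_le_one_iff.mpr (by linarith)
  have hlr : Real.log r = -L := Real.log_exp _
  set ε : ℝ := θ * r with hε
  have hε0 : 0 < ε := by positivity
  have hα : ∀ v, 0 < αg ε r v := by rintro (p | k) <;> simp only [αg] <;> positivity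
  have hsd := sd_XS (fun i => ag ε (e i)) (fun i => xg (e i)) fun i => αg ε r (e i)
  obtain ⟨vis, hvis, hv⟩ := exists_vis e
  have hF := fisher_main (XX e ε r) Sn (Xn_sa _ _ _) Sn_sa
    (fun i => by simpa [spl_cons, XX] using hsd i [.inl i])
    (fun i => by simpa [spl_cons, τ_one] using hsd i [.inr i])
    (fun i => αg ε r (e i) ^ 2) (fun i => pow_pos (hα _) 2) vis (r ^ 2) C (by positivity)
    (pow_le_one₀ hr0.le hr1) hC0
    (fun i hi => by obtain ⟨k, hk⟩ := (hvis i).mp hi; simp [hk, αg])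
    (fun s hs i => bd_heat _ _ _ hs i)
    (fun s hs _ i hi => by
      obtain ⟨j, hj⟩ := (hvis i).mp hi
      obtain ⟨c, hc, hc'⟩ := hM j
      have := bd_vis (fun i => ag ε (e i)) (fun i => xg (e i)) (fun i => αg ε r (e i)) H
        (fun i => ∃ k, e i = .inr k) i ⟨j, hj⟩ (by rintro k ⟨k', hk⟩; simp [hk, ag]) (fj j)
        (fun g => by unfold fj; split_ifs <;> simp)
        (by
          rintro k ⟨k', hk⟩
          have hkk : k = i ↔ k' = j := by
            rw [← e.injective.eq_iff, hk, hj, Sum.inr.injEq]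
          simp only [hk, xg, hkk, fj_step]
          exact ⟨Subgroup.subset_closure ⟨k', rfl⟩, fun γ => ⟨fun h => if_pos h, fun h => if_neg h⟩⟩)
        hc (fun ω hω => ⟨fun h => by rw [hc' ω hω, if_pos h], fun h => by rw [hc' ω hω, if_neg h]⟩)
        (s := s) (lt_of_lt_of_le (by positivity) hs) hθ.le
        (fun k hk => by
          have h1 : ‖ag ε (e k)‖ = ε / 2 := by
            rcases h : e k with ⟨a, _ | _⟩ | k'
            · simp [ag, abs_of_pos hε0]
            · simp [ag, abs_of_pos hε0]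
            · exact absurd ⟨k', h⟩ hk
          have h2 : r ≤ Real.sqrt s := Real.le_sqrt_of_sq_le hs
          rw [h1, hε]
          nlinarith)
      rw [hj] at this
      exact this)
  refine ⟨Alg Γ (Fin n × Option Bool), inferInstance, trL _, XX e ε r, Sn,
    ⟨τ_one, fun a => ⟨?_, τ_nonneg a⟩, fun a h => faithful a ?_, τ_comm⟩, Xn_sa _ _ _,
    ⟨Sn_sa, catalan_of_sd _ _ _ τ_one hsd⟩, free_of_sd _ _ _ τ_one τ_comm hsd, hF.1, hF.2.1, ?_,
    (chi_XX_le e ε r hε0 hr0 hr1).trans (EReal.coe_le_coe_iff.mpr ?_)⟩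
  · exact τ_im_of_sa (IsSelfAdjoint.star_mul_self a)
  · exact congrArg Complex.re h
  · refine bot_lt_chi (trL _) τ_comm τ_star (fun i => Bn (ag ε (e i)) (xg (e i))) Cn
      (fun i => αg ε r (e i)) (fun i => hα _) (fun i => Bn_sa _ _) Cn_sa (sd_BC _ _ _)
      (∑ i, 2 * ‖ag ε (e i)‖) fun L N => ?_
    obtain ⟨d, hd, b, h1, h2, h3⟩ := model (fun i => xg (e i)) (fun i => ag ε (e i))
      (trL (Alg Γ (Fin n × Option Bool))) uA (fun g => (τ_uA g).trans (by congr)) L N
    exact ⟨d, hd, b, h1, fun i => (h2 i).trans (Finset.single_le_sum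
      (f := fun i => 2 * ‖ag ε (e i)‖) (fun _ _ => by positivity) (Finset.mem_univ i)), h3⟩
  · refine le_trans ?_ (sub_le_sub_right hF.2.2 _)
    have hn : (n : ℝ) = 5046 + 24389 := by
      simpa using sum_V e (fun _ => 1) 1 1 (fun _ => rfl) fun _ => rfl
    have hpi : 2 * Real.pi * Real.exp 1 ≠ 0 := by positivity
    rw [sum_V e (fun v => 1 / 2 * Real.log (2 * Real.pi * Real.exp 1 *
        v.elim (fun _ => (4 * ε) ^ 2) fun _ => (127 * r) ^ 2))
        (1 / 2 * Real.log (2 * Real.pi * Real.exp 1 * (4 * ε) ^ 2))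
        (1 / 2 * Real.log (2 * Real.pi * Real.exp 1 * (127 * r) ^ 2)) (fun _ => rfl) (fun _ => rfl),
      sum_V e (fun v => Real.log (αg ε r v ^ 2)) (Real.log ((ε * r) ^ 2)) (Real.log (r ^ 2))
        (fun _ => rfl) (fun _ => rfl), hn, hv]
    rw [Real.log_mul hpi (by positivity), Real.log_mul hpi (by positivity), Real.log_pow,
      Real.log_pow, Real.log_pow, Real.log_pow, Real.log_mul (x := 4) (by norm_num) hε0.ne',
      Real.log_mul (x := 127) (by norm_num) hr0.ne', Real.log_mul hε0.ne' hr0.ne', one_div (2 * _),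
      Real.log_inv, Real.log_mul (x := 2) (by norm_num) (by positivity), Real.log_pow, hlr]
    push_cast
    nlinarith

theorem main :
    ∃ (A : Type) (_ : CStarAlgebra A) (τ : A →ₗ[ℂ] ℂ) (n : ℕ) (X S : Fin n → A),
      IsFaithfulTracialState τ ∧ 2 ≤ n ∧ (∀ i, IsSelfAdjoint (X i)) ∧
      IsStandardSemicircular τ S ∧ IsFreeFamily τ (withNoise X S) ∧
      (∀ s : ℝ, 0 < s → freeFisher τ (heatTuple X S s) < ⊤) ∧
      IntegrableOn (fun s : ℝ => (n : ℝ) / (1 + s) - (freeFisher τ (heatTuple X S s)).toReal)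
        (Set.Ioi 0) ∧
      ⊥ < chi τ X ∧ chi τ X ≤ ((chiStar τ X S - 1 / 2 : ℝ) : EReal) := by
  obtain ⟨A, i, τ, X, S, h1, h2⟩ := main_aux (Fintype.equivFin V).symm
  refine ⟨A, i, τ, _, X, S, h1, ?_, h2⟩
  rw [Fintype.card_sum, card_hid, card_vis]
  norm_num

end Crest.Agent.R89
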