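import Crest.Agent.R89.Pull

/-! Row 89: the Fock space over a group, its tracial C⋆-algebra, Schwinger–Dyson equations. -/

set_option autoImplicit false

namespace Crest.Agent.R89

open Crest.Agent.R95 Function
open scoped InnerProductSpace ComplexConjugate

variable {G T : Type} [Group G]

namespace W

/-- Multiply the last group letter on the right. -/
def mulR (a : G) : W G T → W G T
  | nil g => nil (g * a)
  | cons g t w => cons g t (mulR a w)

/-- Append a letter. -/
def snoc (s : T) : W G T → W G T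
  | nil g => cons g s (nil 1)
  | cons g t w => cons g t (snoc s w)

lemma mulL_mulL (a b : G) (w : W G T) : mulL a (mulL b w) = mulL (a * b) w := by
  cases w <;> simp [mulL, mul_assoc]

@[simp] lemma mulL_one (w : W G T) : mulL 1 w = w := by cases w <;> simp [mulL]

lemma mulR_mulR (a b : G) (w : W G T) : mulR a (mulR b w) = mulR (b * a) w := by
  induction w <;> simp_all [mulR, mul_assoc]

@[simp] lemma mulR_one (w : W G T) : mulR 1 w = w := by induction w <;> simp_all [mulR]

lemma mulL_inj (a : G) : Injective (mulL a : W G T → W G T) :=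
  LeftInverse.injective (g := mulL a⁻¹) fun w => by simp [mulL_mulL]

lemma mulR_inj (a : G) : Injective (mulR a : W G T → W G T) :=
  LeftInverse.injective (g := mulR a⁻¹) fun w => by simp [mulR_mulR]

omit [Group G] in
lemma cons_inj (g : G) (t : T) : Injective (cons g t : W G T → W G T) := fun _ _ h => by
  simpa using h

lemma snoc_ne_nil (s : T) (w : W G T) (g : G) : snoc s w ≠ nil g := by cases w <;> simp [snoc]

lemma snoc_inj (s : T) : Injective (snoc s : W G T → W G T) := by
  intro w
  induction w with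
  | nil g => rintro (g' | ⟨g', t', w'⟩) h <;> simp_all [snoc, (snoc_ne_nil s _ _).symm]
  | cons g t w ih =>
    rintro (g' | ⟨g', t', w'⟩) h
    · simp_all [snoc, snoc_ne_nil]
    · simp only [snoc, cons.injEq] at h ⊢
      exact ⟨h.1, h.2.1, ih h.2.2⟩

lemma mulL_mulR (a b : G) (w : W G T) : mulL a (mulR b w) = mulR b (mulL a w) := by
  cases w <;> simp [mulL, mulR, mul_assoc]

lemma mulL_snoc (a : G) (s : T) (w : W G T) : mulL a (snoc s w) = snoc s (mulL a w) := by
  cases w <;> simp [mulL, snoc]

end W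

open W

/-- Operators on the Fock space. -/
abbrev Op (G T : Type) : Type := l2 (W G T) →L[ℂ] l2 (W G T)

/-- The vacuum. -/
noncomputable def vac : l2 (W G T) := dl (nil 1)

/-- Left translation. -/
noncomputable def Lop (g : G) : Op G T := pull (mulL_inj g⁻¹)
/-- Right translation. -/
noncomputable def Rop (g : G) : Op G T := pull (mulR_inj g)
/-- Left annihilation. -/
noncomputable def an (t : T) : Op G T := pull (cons_inj 1 t)
/-- Left creation. -/
noncomputable def cr (t : T) : Op G T := star (an t)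
/-- Right annihilation. -/
noncomputable def ran (t : T) : Op G T := pull (snoc_inj t)
/-- Right creation. -/
noncomputable def rcr (t : T) : Op G T := star (ran t)
/-- The vacuum projection. -/
noncomputable def Pv : Op G T := (lp.evalCLM ℂ (fun _ : W G T => ℂ) 2 (nil 1)).smulRight vac

@[simp] lemma Lop_apply (g : G) (ξ : l2 (W G T)) (w : W G T) : Lop g ξ w = ξ (mulL g⁻¹ w) :=
  pull_apply _ _ _
@[simp] lemma Rop_apply (g : G) (ξ : l2 (W G T)) (w : W G T) : Rop g ξ w = ξ (mulR g w) :=
  pull_apply _ _ _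
@[simp] lemma an_apply (t : T) (ξ : l2 (W G T)) (w : W G T) : an t ξ w = ξ (cons 1 t w) :=
  pull_apply _ _ _
@[simp] lemma ran_apply (t : T) (ξ : l2 (W G T)) (w : W G T) : ran t ξ w = ξ (snoc t w) :=
  pull_apply _ _ _
lemma Pv_apply (ξ : l2 (W G T)) : Pv ξ = ξ (nil 1) • vac := rfl

@[simp] lemma cr_nil (t : T) (ξ : l2 (W G T)) (g : G) : cr t ξ (nil g) = 0 :=
  adj_pull_apply_of _ _ (by simp)

open Classical in
lemma cr_cons (t : T) (ξ : l2 (W G T)) (g : G) (t' : T) (w : W G T) :
    cr t ξ (cons g t' w) = if g = 1 ∧ t' = t then ξ w else 0 := by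
  split_ifs with h
  · obtain ⟨rfl, rfl⟩ := h
    exact adj_pull_apply _ _ _
  · exact adj_pull_apply_of _ _ fun a ha => h (by simp_all)

@[simp] lemma rcr_nil (t : T) (ξ : l2 (W G T)) (g : G) : rcr t ξ (nil g) = 0 :=
  adj_pull_apply_of _ _ fun _ => snoc_ne_nil _ _ _

omit [Group G] in
lemma op_mul (x y : Op G T) (ξ : l2 (W G T)) : (x * y) ξ = x (y ξ) := rfl

omit [Group G] in
lemma op_add (x y : Op G T) (ξ : l2 (W G T)) : (x + y) ξ = x ξ + y ξ := rfl

omit [Group G] in
lemma op_ext {x y : Op G T} (h : ∀ ξ w, x ξ w = y ξ w) : x = y :=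
  ContinuousLinearMap.ext fun ξ => l2_ext (h ξ)

lemma Lop_mul (a b : G) : (Lop (a * b) : Op G T) = Lop a * Lop b :=
  op_ext fun ξ w => by simp [mulL_mulL]

@[simp] lemma Lop_one : (Lop 1 : Op G T) = 1 := op_ext fun ξ w => by simp

lemma star_pull_equiv {α : Type} {φ ψ : α → α} (hφ : Injective φ) (hψ : Injective ψ)
    (h : ∀ a, φ (ψ a) = a) : star (pull hφ) = pull hψ :=
  ContinuousLinearMap.ext fun ξ => l2_ext fun a => by
    conv_lhs => rw [← h a]
    rw [pull_apply]
    exact adj_pull_apply _ _ _

lemma star_Lop (g : G) : star (Lop g : Op G T) = Lop g⁻¹ :=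
  star_pull_equiv _ _ fun w => by simp [mulL_mulL]

lemma star_Rop (g : G) : star (Rop g : Op G T) = Rop g⁻¹ :=
  star_pull_equiv _ _ fun w => by simp [mulR_mulR]

@[simp] lemma star_cr (t : T) : star (cr t : Op G T) = an t := star_star _
@[simp] lemma star_an (t : T) : star (an t : Op G T) = cr t := rfl
@[simp] lemma star_rcr (t : T) : star (rcr t : Op G T) = ran t := star_star _
@[simp] lemma star_ran (t : T) : star (ran t : Op G T) = rcr t := rfl

lemma inner_vac (ξ : l2 (W G T)) : ⟪vac, ξ⟫_ℂ = ξ (nil 1) := inner_dl _ _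

lemma star_Pv : star (Pv : Op G T) = Pv := by
  refine (ContinuousLinearMap.eq_adjoint_iff _ _).mpr (fun ξ ζ => ?_) |>.symm
  rw [Pv_apply, Pv_apply, inner_smul_left, inner_smul_right, inner_vac, ← inner_conj_symm,
    inner_vac, mul_comm]

lemma Lop_dl (g : G) (w : W G T) : Lop g (dl w) = dl (mulL g w) := l2_ext fun v => by
  classical
  simp only [Lop_apply, dl_apply]
  refine if_congr ⟨?_, ?_⟩ rfl rfl
  · rintro rfl; simp [mulL_mulL]
  · rintro rfl; simp [mulL_mulL]

lemma Lop_vac (g : G) : (Lop g : Op G T) vac = dl (nil g) := by simp [vac, Lop_dl, mulL]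

lemma Rop_vac (g : G) : (Rop g⁻¹ : Op G T) vac = dl (nil g) := l2_ext fun v => by
  classical
  cases v <;> simp [vac, dl_apply, mulR, mul_inv_eq_one]

lemma cr_dl (t : T) (w : W G T) : cr t (dl w) = dl (cons 1 t w) := l2_ext fun v => by
  classical
  cases v <;> simp [dl_apply, cr_cons, ite_and]

lemma an_dl_nil (t : T) (g : G) : (an t : Op G T) (dl (nil g)) = 0 := l2_ext fun v => by
  simp [dl_apply]

open Classical in
lemma an_dl_cons (t : T) (g : G) (t' : T) (w : W G T) :
    an t (dl (cons g t' w)) = if g = 1 ∧ t' = t then dl w else 0 := l2_ext fun v => by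
  split_ifs with h
  · obtain ⟨rfl, rfl⟩ := h
    simp [dl_apply]
  · simp only [an_apply, l2_zero]
    exact dl_ne fun h' => h (by simp_all)

lemma an_vac (t : T) : (an t : Op G T) vac = 0 := an_dl_nil _ _

lemma ran_vac (t : T) : (ran t : Op G T) vac = 0 := l2_ext fun v => by
  simp [vac, dl_apply, snoc_ne_nil]

lemma rcr_vac (t : T) : (rcr t : Op G T) vac = cr t vac := l2_ext fun v => by
  classical
  rw [vac, cr_dl]
  by_cases h : v = cons 1 t (nil 1)
  · subst h
    exact (adj_pull_apply (snoc_inj t) _ (nil 1)).trans (by simp)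
  · rw [dl_ne h]
    by_cases h' : ∃ a, snoc t a = v
    · obtain ⟨a, rfl⟩ := h'
      exact (adj_pull_apply (snoc_inj t) _ a).trans (dl_ne fun ha => h (by rw [ha]; rfl))
    · exact adj_pull_apply_of _ _ (by simpa using h')

/-! Commutation relations -/

lemma comm_star {R : Type*} [Mul R] [StarMul R] {x y : R} (h : Commute x y) :
    Commute (star x) (star y) := by
  rw [Commute, SemiconjBy, ← star_mul, ← star_mul, h.eq]

lemma comm_R_L (a b : G) : Commute (Rop a : Op G T) (Lop b) :=
  op_ext fun ξ w => by simp [mulL_mulR]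

lemma comm_R_an (a : G) (t : T) : Commute (Rop a : Op G T) (an t) :=
  op_ext fun ξ w => by simp [mulR]

lemma comm_R_cr (a : G) (t : T) : Commute (Rop a : Op G T) (cr t) := by
  simpa [star_Rop] using comm_star (comm_R_an a⁻¹ t)

lemma comm_ran_L (s : T) (b : G) : Commute (ran s : Op G T) (Lop b) :=
  op_ext fun ξ w => by simp [mulL_snoc]

lemma comm_rcr_L (s : T) (b : G) : Commute (rcr s : Op G T) (Lop b) := by
  simpa [star_Lop] using comm_star (comm_ran_L s b⁻¹)

lemma comm_ran_an (s t : T) : Commute (ran s : Op G T) (an t) :=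
  op_ext fun ξ w => by simp [snoc]

open Classical in
lemma ran_cr (s t : T) :
    (ran s : Op G T) * cr t = cr t * ran s + (if t = s then (1 : ℂ) else 0) • Pv :=
  op_ext fun ξ w => by
    cases w with
    | nil g =>
      by_cases hg : g = 1 <;> by_cases ht : t = s <;>
        simp [snoc, cr_cons, Pv_apply, vac, dl_apply, hg, ht, eq_comm (a := s)]
    | cons g t' w => by_cases ht : t = s <;> simp [snoc, cr_cons, Pv_apply, vac, dl_apply, ht]

/-- The semicircular operators. -/
noncomputable def Sop (t : T) : Op G T := cr t + an t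
/-- The right semicircular operators. -/
noncomputable def rSop (t : T) : Op G T := rcr t + ran t

lemma star_Sop (t : T) : star (Sop t : Op G T) = Sop t := by simp [Sop, add_comm]
lemma star_rSop (t : T) : star (rSop t : Op G T) = rSop t := by simp [rSop, add_comm]

lemma comm_rS_S (s t : T) : Commute (rSop s : Op G T) (Sop t) := by
  classical
  have h1 := ran_cr (G := G) s t
  have h2 := congrArg star h1
  have h3 := (comm_ran_an (G := G) s t).eq
  have h4 := (comm_star (comm_ran_an (G := G) s t)).eq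
  simp only [star_mul, star_add, star_cr, star_ran, star_an, star_smul, star_Pv] at h2 h4
  have h5 : star (if t = s then (1 : ℂ) else 0) = if t = s then 1 else 0 := by
    split_ifs <;> simp
  rw [h5] at h2
  simp only [Commute, SemiconjBy, rSop, Sop, add_mul, mul_add, h1, h2, h3, h4]
  abel

lemma norm_Sop_le (t : T) : ‖(Sop t : Op G T)‖ ≤ 2 := by
  have : ‖(an t : Op G T)‖ ≤ 1 := norm_pull_le _
  have h2 : ‖(cr t : Op G T)‖ ≤ 1 := (norm_star (an t : Op G T)).trans_le this
  exact (norm_add_le _ _).trans (by linarith)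

/-- The vacuum state. -/
noncomputable def om : Op G T →L[ℂ] ℂ :=
  (lp.evalCLM ℂ (fun _ : W G T => ℂ) 2 (nil 1)).comp (ContinuousLinearMap.apply ℂ _ vac)

lemma om_apply (x : Op G T) : om x = x vac (nil 1) := rfl

lemma om_star_mul (x y : Op G T) : om (star x * y) = ⟪x vac, y vac⟫_ℂ := by
  rw [om_apply, ← inner_vac]
  exact ContinuousLinearMap.adjoint_inner_right _ _ _

lemma om_star (x : Op G T) : om (star x) = conj (om x) := by
  have := om_star_mul x 1
  rw [mul_one] at this
  rw [this, ← inner_conj_symm, om_apply, ← inner_vac]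
  rfl

/-- Commutes with the right operators. -/
def Cm (x : Op G T) : Prop := (∀ g, Commute (Rop g) x) ∧ ∀ t, Commute (rSop t) x

lemma Cm.mul {x y : Op G T} (hx : Cm x) (hy : Cm y) : Cm (x * y) :=
  ⟨fun g => (hx.1 g).mul_right (hy.1 g), fun t => (hx.2 t).mul_right (hy.2 t)⟩

lemma Cm.star {x : Op G T} (hx : Cm x) : Cm (star x) :=
  ⟨fun g => by simpa [star_Rop] using comm_star (hx.1 g⁻¹),
    fun t => by simpa [star_rSop] using comm_star (hx.2 t)⟩

lemma cm_L (g : G) : Cm (Lop g : Op G T) :=
  ⟨fun a => comm_R_L a g, fun t => (comm_rcr_L t g).add_left (comm_ran_L t g)⟩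

lemma cm_S (t : T) : Cm (Sop t : Op G T) :=
  ⟨fun a => (comm_R_cr a t).add_right (comm_R_an a t), fun s => comm_rS_S s t⟩

lemma Cm.L_vac {x : Op G T} (hx : Cm x) (g : G) : x (Lop g vac) = Rop g⁻¹ (x vac) := by
  rw [Lop_vac, ← Rop_vac]
  exact (DFunLike.congr_fun (hx.1 g⁻¹).eq vac).symm

lemma Cm.S_vac {x : Op G T} (hx : Cm x) (t : T) : x (Sop t vac) = rSop t (x vac) := by
  have : (Sop t : Op G T) vac = rSop t vac := by simp [Sop, rSop, an_vac, ran_vac, rcr_vac]
  rw [this]
  exact (DFunLike.congr_fun (hx.2 t).eq vac).symm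

/-- The vacuum separates the operators that commute with the right operators. -/
lemma Cm.eq_zero {x : Op G T} (hx : Cm x) (h : x vac = 0) : x = 0 := by
  classical
  have key : ∀ w : W G T, (∀ y : Op G T, Cm y → y vac = 0 → y (dl w) = 0) ∧
      ∀ t, ∀ y : Op G T, Cm y → y vac = 0 → y (an t (dl w)) = 0 := by
    intro w
    induction w with
    | nil g =>
      refine ⟨fun y hy h0 => ?_, fun t y _ _ => by rw [an_dl_nil, map_zero]⟩
      rw [← Lop_vac, hy.L_vac, h0, map_zero]
    | cons g t w ih =>
      refine ⟨fun y hy h0 => ?_, fun t' y hy h0 => ?_⟩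
      · have hL : (y * Lop g : Op G T) vac = 0 := by
          rw [op_mul, hy.L_vac, h0, map_zero]
        have hyL := hy.mul (cm_L g)
        have hS : (y * Lop g * Sop t : Op G T) vac = 0 := by
          rw [op_mul, hyL.S_vac, hL, map_zero]
        have h1 := ih.1 _ (hyL.mul (cm_S t)) hS
        have h2 := ih.2 t _ hyL hL
        rw [op_mul, Sop, op_add, map_add, h2,
          add_zero, cr_dl, op_mul, Lop_dl] at h1
        simpa [mulL] using h1
      · rw [an_dl_cons]
        split_ifs
        · exact ih.1 y hy h0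
        · exact map_zero _
  exact eq_zero_of_dl fun w => (key w).1 x hx h

variable (G T) in
/-- The tracial algebra: the centralizer of the vacuum state in the commutant of the right
operators. -/
noncomputable def Alg : StarSubalgebra ℂ (Op G T) where
  carrier := {x | Cm x ∧ ∀ y, Cm y → om (x * y) = om (y * x)}
  mul_mem' {x x'} hx hx' := ⟨hx.1.mul hx'.1, fun y hy => by
    rw [mul_assoc, hx.2 _ (hx'.1.mul hy), mul_assoc, hx'.2 _ (hy.mul hx.1), mul_assoc]⟩
  add_mem' {x x'} hx hx' := ⟨⟨fun g => (hx.1.1 g).add_right (hx'.1.1 g),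
    fun t => (hx.1.2 t).add_right (hx'.1.2 t)⟩, fun y hy => by
      rw [add_mul, mul_add, map_add, map_add, hx.2 y hy, hx'.2 y hy]⟩
  algebraMap_mem' c := ⟨⟨fun g => (Algebra.commutes c _).symm,
    fun t => (Algebra.commutes c _).symm⟩, fun y _ => by rw [Algebra.commutes]⟩
  star_mem' {x} hx := ⟨hx.1.star, fun y hy => by
    have := congrArg conj (hx.2 _ hy.star)
    rw [← om_star, ← om_star, star_mul, star_mul, star_star] at this
    exact this.symm⟩

instance : IsClosed ((Alg G T : StarSubalgebra ℂ (Op G T)) : Set (Op G T)) := by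
  have : ((Alg G T : StarSubalgebra ℂ (Op G T)) : Set (Op G T)) =
      ((⋂ g, {x | Rop g * x = x * Rop g}) ∩ ⋂ t, {x | rSop t * x = x * rSop t}) ∩
        ⋂ y, ⋂ (_ : Cm y), {x | om (x * y) = om (y * x)} := by
    ext x
    simp only [Set.mem_inter_iff, Set.mem_iInter]
    rfl
  rw [this]
  refine IsClosed.inter (IsClosed.inter ?_ ?_) ?_
  · exact isClosed_iInter fun g => isClosed_eq (by fun_prop) (by fun_prop)
  · exact isClosed_iInter fun g => isClosed_eq (by fun_prop) (by fun_prop)
  · exact isClosed_iInter fun y => isClosed_iInter fun _ => isClosed_eq (by fun_prop) (by fun_prop)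

noncomputable instance : CStarAlgebra (Alg G T) := StarSubalgebra.cstarAlgebra _

noncomputable instance : Tr (Alg G T) where
  τ := om.comp (Alg G T).toSubalgebra.toSubmodule.subtypeL
  τ_one := by change om (1 : Op G T) = 1; simp [om_apply, vac]
  τ_comm x y := x.2.2 _ y.2.1
  τ_star x := om_star x.1
  τ_nonneg x := by
    change 0 ≤ (om (star x.1 * x.1)).re
    rw [om_star_mul]
    exact inner_self_nonneg (𝕜 := ℂ)
  faithful x h := by
    change (om (star x.1 * x.1)).re = 0 at h
    rw [om_star_mul] at h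
    refine Subtype.ext (x.2.1.eq_zero ?_)
    exact (re_inner_self_nonpos (𝕜 := ℂ)).mp h.le

lemma τ_eq (x : Alg G T) : τ x = x.1 vac (nil 1) := rfl

lemma n2_eq (x : Alg G T) : n2 x = ‖x.1 vac‖ := by
  rw [← sq_eq_sq₀ (n2_nonneg _) (norm_nonneg _), n2_sq]
  change (om (star x.1 * x.1)).re = _
  rw [om_star_mul]
  exact inner_self_eq_norm_sq (𝕜 := ℂ) _

/-- The group unitaries. -/
noncomputable def uA : G →* Alg G T where
  toFun g := ⟨Lop g, cm_L g, fun y hy => by
    simp [om_apply, hy.L_vac, mulL, mulR]⟩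
  map_one' := Subtype.ext Lop_one
  map_mul' a b := Subtype.ext (Lop_mul a b)

/-- The semicircular elements. -/
noncomputable def sA (t : T) : Alg G T := ⟨Sop t, cm_S t, fun y hy => by
  rw [om_apply, om_apply, op_mul, op_mul, hy.S_vac]
  simp [Sop, rSop, snoc]⟩

@[simp] lemma uA_val (g : G) : (uA g : Alg G T).1 = Lop g := rfl
@[simp] lemma sA_val (t : T) : (sA t : Alg G T).1 = Sop t := rfl

lemma star_uA (g : G) : star (uA g : Alg G T) = uA g⁻¹ := Subtype.ext (star_Lop g)

lemma sA_sa (t : T) : IsSelfAdjoint (sA t : Alg G T) := Subtype.ext (star_Sop t)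

lemma norm_sA_le (t : T) : ‖(sA t : Alg G T)‖ ≤ 2 := norm_Sop_le t

open Classical in
lemma τ_uA (g : G) : τ (uA g : Alg G T) = if g = 1 then 1 else 0 := by
  simp [τ_eq, Lop_vac, dl_apply, eq_comm]

/-- `x` has derivative `c (1 ⊗ 1)` in the direction `t`. -/
def Der (t : T) (x : Alg G T) (c : ℂ) : Prop := ran t * x.1 = x.1 * ran t + c • Pv

lemma der_u (t : T) (g : G) : Der t (uA g) 0 := by simp [Der, (comm_ran_L t g).eq]

open Classical in
lemma der_s (t t' : T) : Der t (sA t' : Alg G T) (if t' = t then 1 else 0) := by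
  simp only [Der, sA_val, Sop, mul_add, add_mul, ran_cr, (comm_ran_an t t').eq]
  abel

lemma Der.add {t : T} {x y : Alg G T} {c d : ℂ} (hx : Der t x c) (hy : Der t y d) :
    Der t (x + y) (c + d) := by
  unfold Der at *
  change ran t * (x.1 + y.1) = (x.1 + y.1) * ran t + _
  rw [mul_add, add_mul, hx, hy, add_smul]
  abel

lemma Der.smul {t : T} {x : Alg G T} {c : ℂ} (hx : Der t x c) (a : ℂ) :
    Der t (a • x) (a * c) := by
  unfold Der at *
  change ran t * (a • x.1) = (a • x.1) * ran t + _
  rw [mul_smul_comm, smul_mul_assoc, hx, smul_add, mul_smul]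

lemma Der.congr {t : T} {x : Alg G T} {c d : ℂ} (hx : Der t x c) (h : c = d) : Der t x d :=
  h ▸ hx

/-- The Schwinger–Dyson equation. -/
theorem sd_of_der {ι : Type*} (t : T) (Y : ι → Alg G T) (c : ι → ℂ) (h : ∀ i, Der t (Y i) (c i)) :
    SD (trL (Alg G T)) Y (sA t) c := by
  have key : ∀ (l : List ι) (X : Op G T), om (X * ran t * (ev Y l).1) =
      spl c (fun a => om (X * (ev Y a).1)) (fun a => om (ev Y a).1) l := by
    intro l
    induction l with
    | nil => intro X; simp [om_apply, ran_vac]
    | cons i l ih =>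
      intro X
      have e1 : X * ran t * (ev Y (i :: l)).1 =
          X * (Y i).1 * ran t * (ev Y l).1 + c i • (X * Pv * (ev Y l).1) := by
        rw [ev_cons]
        change X * ran t * ((Y i).1 * (ev Y l).1) = _
        rw [mul_assoc X, ← mul_assoc (ran t), h i]
        simp [add_mul, mul_add, mul_assoc]
      rw [e1, map_add, ih, spl_cons, add_comm]
      congr 1
      simp [om_apply, Pv_apply, mul_comm]
  intro l
  have := key l 1
  simp only [one_mul] at this
  refine Eq.trans ?_ this
  change om (Sop t * (ev Y l).1) = _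
  simp [om_apply, Sop, snoc]

end Crest.Agent.R89
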