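import Crest.Agent.R89.Fock

/-! Row 89: the cut functional is given by a vector. -/

set_option autoImplicit false

namespace Crest.Agent.R89

open Crest.Agent.R95 Function W
open scoped InnerProductSpace ComplexConjugate

variable {G T : Type} [Group G]

/-- Inversion of the words without `T`-letters. -/
def invW : W G T → W G T
  | nil g => nil g⁻¹
  | cons g t w => cons g t w

lemma invW_inj : Injective (invW : W G T → W G T) :=
  Involutive.injective fun w => by cases w <;> simp [invW]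

/-- The weight of the words without `T`-letters. -/
def mW (F : G → ℂ) : W G T → ℂ
  | nil g => F g
  | cons _ _ _ => 0

/-- A function bounded by one. -/
abbrev BF (G : Type) : Type := {F : G → ℂ // ∀ g, ‖F g‖ ≤ 1}

/-- `(K ζ)(y) = F(y) ζ(y⁻¹)`. -/
noncomputable def Kop (F : BF G) : Op G T :=
  wpull invW_inj (m := mW F.1) fun w => by cases w <;> simp [mW, F.2]

@[simp] lemma Kop_nil (F : BF G) (ζ : l2 (W G T)) (y : G) :
    Kop F ζ (nil y) = F.1 y * ζ (nil y⁻¹) := rfl

@[simp] lemma Kop_cons (F : BF G) (ζ : l2 (W G T)) (g : G) (t : T) (w : W G T) :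
    Kop F ζ (cons g t w) = 0 := zero_mul _

/-- The bilinear pairing. -/
noncomputable def bil {α : Type} : l2 α →ₗ[ℂ] l2 α →ₗ[ℂ] ℂ :=
  LinearMap.mk₂ ℂ (fun ξ ζ => ⟪star ξ, ζ⟫_ℂ) (fun _ _ _ => by rw [star_add, inner_add_left])
    (fun _ _ _ => by rw [star_smul, inner_smul_left]; simp)
    (fun _ _ _ => inner_add_right _ _ _) (fun _ _ _ => inner_smul_right _ _ _)

lemma bil_eq {α : Type} (ξ ζ : l2 α) : bil ξ ζ = ∑' a, ξ a * ζ a := by
  change ⟪star ξ, ζ⟫_ℂ = _
  rw [lp.inner_eq_tsum]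
  simp [mul_comm]

lemma bil_dl_left {α : Type} (a : α) (ζ : l2 α) : bil (dl a) ζ = ζ a := by
  rw [bil_eq, tsum_eq_single a fun b hb => by simp [dl_ne hb]]
  simp

lemma bil_dl_right {α : Type} (a : α) (ξ : l2 α) : bil ξ (dl a) = ξ a := by
  rw [bil_eq, tsum_eq_single a fun b hb => by simp [dl_ne hb]]
  simp

lemma bil_Rop (g : G) (ξ ζ : l2 (W G T)) : bil (Rop g⁻¹ ξ) ζ = bil ξ (Rop g ζ) := by
  change ⟪star (Rop g⁻¹ ξ), ζ⟫_ℂ = ⟪star ξ, Rop g ζ⟫_ℂ
  have : star (Rop g⁻¹ ξ) = star (Rop g : Op G T) (star ξ) := l2_ext fun w => by simp [star_Rop]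
  rw [this]
  exact ContinuousLinearMap.adjoint_inner_left _ _ _

lemma bil_Kop_zero (F : BF G) {ξ : l2 (W G T)} (h : ∀ g, ξ (nil g) = 0) (ζ : l2 (W G T)) :
    bil ξ (Kop F ζ) = 0 := by
  rw [bil_eq]
  convert tsum_zero with w
  cases w <;> simp [h]

/-- Functionals on operators. -/
abbrev Du (G T : Type) : Type := Op G T →ₗ[ℂ] ℂ

/-- The cut at a group letter `h`. -/
noncomputable def cutH (F : BF G) (h : G) : l2 (W G T) →ₗ[ℂ] Du G T :=
  LinearMap.mk₂ ℂ (fun ξ X => bil (X (Lop h vac)) (Kop F ξ) - bil (X vac) (Kop F (Lop h ξ)))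
    (fun _ _ _ => by simp only [map_add]; ring)
    (fun _ _ _ => by simp only [map_smul, smul_eq_mul]; ring)
    (fun _ _ _ => by simp only [op_add, map_add, LinearMap.add_apply]; ring)
    (fun c _ X => by
      have : ∀ ζ, (c • X) ζ = c • X ζ := fun _ => rfl
      simp only [this, map_smul, LinearMap.smul_apply, smul_eq_mul]; ring)

lemma cutH_apply (F : BF G) (h : G) (ξ : l2 (W G T)) (X : Op G T) : cutH F h ξ X =
    bil (X (Lop h vac)) (Kop F ξ) - bil (X vac) (Kop F (Lop h ξ)) := rfl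

lemma cutH_mul (F : BF G) (h γ : G) (ξ : l2 (W G T)) (X : Op G T) :
    cutH F (h * γ) ξ X = cutH F h (Lop γ ξ) X + cutH F γ ξ (X * Lop h) := by
  simp only [cutH_apply, Lop_mul, op_mul]
  ring

lemma cutH_one (F : BF G) (ξ : l2 (W G T)) (X : Op G T) : cutH F 1 ξ X = 0 := by
  simp [cutH_apply]

lemma cutH_Lop (F : BF G) (h a : G) (ξ : l2 (W G T)) :
    cutH F h ξ (Lop a) = (F.1 (a * h) - F.1 a) * ξ (nil (a * h)⁻¹) := by
  rw [cutH_apply, ← op_mul, ← Lop_mul, Lop_vac, Lop_vac, bil_dl_left, bil_dl_left]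
  simp [mulL]
  ring

lemma cutH_zero (F : BF G) (h : G) (ξ : l2 (W G T)) {X : Op G T} (hX : ∀ ζ g, X ζ (nil g) = 0) :
    cutH F h ξ X = 0 := by
  rw [cutH_apply, bil_Kop_zero F (hX _), bil_Kop_zero F (hX _), sub_zero]

open Classical in
lemma cutH_cm (F : BF G) {g y₀ : G} {δ : ℂ}
    (hF : ∀ y, F.1 (y * g) - F.1 y = if y = y₀ then δ else 0) (ξ : l2 (W G T)) {X : Op G T}
    (hX : Cm X) : cutH F g ξ X = δ * (X vac (nil y₀) * ξ (nil (y₀ * g)⁻¹)) := by
  have : Rop g (Kop F ξ) - Kop F (Lop g ξ) = (δ * ξ (nil (y₀ * g)⁻¹)) • dl (nil y₀) :=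
    l2_ext fun w => by
      cases w with
      | nil y =>
        have := hF y
        by_cases hy : y = y₀
        · subst hy
          simp only [if_true] at this
          simp [mulR, mulL, ← this, sub_mul]
        · simp only [hy, if_false] at this
          simp [mulR, mulL, dl_apply, hy, ← sub_mul, this]
      | cons => simp [mulR, dl_apply]
  rw [cutH_apply, hX.L_vac, bil_Rop, ← map_sub, this, map_smul, bil_dl_right, smul_eq_mul]
  ring

section Psi
variable (κ : T → ℂ) (x : T → G)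

/-- The creation part of a letter. -/
noncomputable def Tp (t : T) : Op G T := κ t • Lop (x t) + cr t

/-- Wick ordered words. -/
noncomputable def Psi : W G T → l2 (W G T)
  | nil g => Lop g vac
  | cons g t w => Lop g (Tp κ x t (Psi w))

/-- The weight of a word. -/
noncomputable def wt : W G T → ℂ
  | nil _ => 1
  | cons _ t w => κ t * wt w

/-- The cuts in a Wick ordered word. -/
noncomputable def Gp (F : BF G) : W G T → Du G T
  | nil g => cutH F g vac
  | cons g t w =>
      cutH F g (Tp κ x t (Psi κ x w)) + Gp F w ∘ₗ LinearMap.mulRight ℂ (Lop g * Tp κ x t)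

lemma Tp_apply (t : T) (ξ : l2 (W G T)) : Tp κ x t ξ = κ t • Lop (x t) ξ + cr t ξ := rfl

lemma wt_mulL (a : G) (w : W G T) : wt κ (mulL a w) = wt κ w := by cases w <;> rfl

omit [Group G] in
lemma norm_wt_le {θ : ℝ} (h : ∀ t, ‖κ t‖ ≤ θ) (w : W G T) : ‖wt κ w‖ ≤ θ ^ w.len := by
  induction w with
  | nil => simp [wt, len]
  | cons g t w ih =>
    rw [wt, len, norm_mul, pow_succ']
    exact mul_le_mul (h t) ih (norm_nonneg _) ((norm_nonneg _).trans (h t))

lemma inner_Psi (ω : W G T) : ∀ (v : l2 (W G T)) (c : W G T → ℤ) (z : ℂ),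
    (∀ w, conj (v w) = z * wt κ w * c w) → ⟪v, Psi κ x ω⟫_ℂ = z * wt κ ω * W.sub x c ω := by
  induction ω with
  | nil g =>
    intro v c z h
    rw [Psi, Lop_vac, ← inner_conj_symm, inner_dl, h]
    rfl
  | cons g t w ih =>
    intro v c z h
    have e1 : ⟪v, Lop g (Lop (x t) (Psi κ x w))⟫_ℂ = ⟪Lop (g * x t)⁻¹ v, Psi κ x w⟫_ℂ := by
      rw [← op_mul, ← Lop_mul, ← star_Lop]
      exact (ContinuousLinearMap.adjoint_inner_left _ _ _).symm
    have e2 : ⟪v, Lop g (cr t (Psi κ x w))⟫_ℂ = ⟪an t (Lop g⁻¹ v), Psi κ x w⟫_ℂ := by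
      rw [← op_mul, ← op_mul, ← star_Lop, ← star_cr, ← star_mul]
      exact (ContinuousLinearMap.adjoint_inner_left _ _ _).symm
    rw [Psi, Tp_apply, map_add, map_smul, inner_add_right, inner_smul_right, e1, e2,
      ih _ (fun v => c (mulL (g * x t) v)) z fun w' => by simp [h, wt_mulL],
      ih _ (fun v => c (cons g t v)) (z * κ t) fun w' => by simp [h, mulL, wt, mul_assoc]]
    simp only [wt, W.sub, Int.cast_add]
    ring

open Classical in
lemma Psi_nil (ω : W G T) : ∀ y : G, Psi κ x ω (nil y) = if ω.prod x = y then wt κ ω else 0 := by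
  induction ω with
  | nil g => intro y; simp [Psi, Lop_vac, dl_apply, W.prod, wt, eq_comm]
  | cons g t w ih =>
    intro y
    simp only [Psi, Tp_apply, Lop_apply, mulL, l2_add, l2_smul, cr_nil, add_zero, ih, W.prod, wt,
      mul_ite, mul_zero]
    refine if_congr ⟨fun h => by rw [h]; group, fun h => by rw [← h]; group⟩ rfl rfl

lemma Gp_zero (F : BF G) (ω : W G T) :
    ∀ X : Op G T, (∀ ζ g, X ζ (nil g) = 0) → Gp κ x F ω X = 0 := by
  induction ω with
  | nil g => exact fun X hX => cutH_zero F _ _ hX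
  | cons g t w ih =>
    intro X hX
    simp only [Gp, LinearMap.add_apply, LinearMap.comp_apply, LinearMap.mulRight_apply]
    rw [cutH_zero F _ _ hX, ih (X * _) fun ζ g => hX _ g, add_zero]

open Classical in
lemma Gp_Lop (F : BF G) (ω : W G T) : ∀ a : G, Gp κ x F ω (Lop a) =
    if a * ω.prod x = 1 then
      wt κ ω * (((W.steps x a ω).map fun e => F.1 e.1 - F.1 e.2).sum + (F.1 1 - F.1 a))
    else 0 := by
  induction ω with
  | nil g =>
    intro a
    simp only [Gp, cutH_Lop, vac, dl_apply, W.prod, wt, W.steps, nil.injEq, inv_eq_one]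
    split_ifs with h <;> simp [h]
  | cons g t w ih =>
    intro a
    have e : (Lop a * (Lop g * Tp κ x t) : Op G T) =
        κ t • Lop (a * g * x t) + Lop (a * g) * cr t := by
      simp [Tp, Lop_mul, mul_add, mul_assoc]
    simp only [Gp, LinearMap.add_apply, LinearMap.comp_apply, LinearMap.mulRight_apply, e, map_add,
      map_smul, ih, cutH_Lop]
    rw [Gp_zero κ x F w (Lop (a * g) * cr t) fun ζ y => by simp [mulL]]
    simp only [Tp_apply, l2_add, l2_smul, Lop_apply, mulL, cr_nil, Psi_nil, W.prod, wt, W.steps,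
      List.map_cons, List.sum_cons, smul_eq_mul, add_zero]
    have h1 : W.prod x w = (x t)⁻¹ * (a * g)⁻¹ ↔ a * g * x t * W.prod x w = 1 := by
      rw [← mul_inv_rev, eq_inv_iff_mul_eq_one, mul_eq_one_comm]
    have h2 : a * (g * x t * W.prod x w) = 1 ↔ a * g * x t * W.prod x w = 1 := by
      simp only [mul_assoc]
    simp only [h1, h2]
    split_ifs <;> ring

variable (F : BF G) (H : Subgroup G)

/-- The span of the Wick ordered words with letters in `H`, with their cuts. -/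
noncomputable def Sp : Submodule ℂ (l2 (W G T) × Du G T) :=
  Submodule.span ℂ {p | ∃ ω : W G T, (∀ γ ∈ ω.jumps, γ ∈ H) ∧ p = (Psi κ x ω, Gp κ x F ω)}

/-- The action of a letter `Y` with cut `c`. -/
noncomputable def act (Y : Op G T) (c : l2 (W G T) →ₗ[ℂ] Du G T) :
    l2 (W G T) × Du G T →ₗ[ℂ] l2 (W G T) × Du G T where
  toFun p := (Y p.1, c p.1 + p.2 ∘ₗ LinearMap.mulRight ℂ Y)
  map_add' p q := by
    refine Prod.ext (map_add _ _ _) (LinearMap.ext fun X => ?_)
    simp
    ring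
  map_smul' a p := by
    refine Prod.ext (map_smul _ _ _) (LinearMap.ext fun X => ?_)
    simp

/-- The letter `Y` with cut `c` preserves the span. -/
def Adm (Y : Op G T) (c : l2 (W G T) →ₗ[ℂ] Du G T) : Prop :=
  ∀ p ∈ Sp κ x F H, act Y c p ∈ Sp κ x F H

variable {κ x F H}

lemma mem_Sp {ω : W G T} (h : ∀ γ ∈ ω.jumps, γ ∈ H) : (Psi κ x ω, Gp κ x F ω) ∈ Sp κ x F H :=
  Submodule.subset_span ⟨ω, h, rfl⟩

lemma adm_of {Y : Op G T} {c : l2 (W G T) →ₗ[ℂ] Du G T}
    (h : ∀ ω : W G T, (∀ γ ∈ ω.jumps, γ ∈ H) → act Y c (Psi κ x ω, Gp κ x F ω) ∈ Sp κ x F H) :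
    Adm κ x F H Y c := by
  have : Sp κ x F H ≤ (Sp κ x F H).comap (act Y c) := Submodule.span_le.mpr <| by
    rintro _ ⟨ω, hω, rfl⟩
    exact h ω hω
  exact fun p hp => this hp

lemma Adm.add {Y Y' : Op G T} {c c' : l2 (W G T) →ₗ[ℂ] Du G T} (h : Adm κ x F H Y c)
    (h' : Adm κ x F H Y' c') : Adm κ x F H (Y + Y') (c + c') := fun p hp => by
  convert add_mem (h p hp) (h' p hp) using 1
  refine Prod.ext rfl (LinearMap.ext fun X => ?_)
  simp [act, mul_add]
  ring

lemma Adm.smul {Y : Op G T} {c : l2 (W G T) →ₗ[ℂ] Du G T} (h : Adm κ x F H Y c) (a : ℂ) :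
    Adm κ x F H (a • Y) (a • c) := fun p hp => by
  convert Submodule.smul_mem _ a (h p hp) using 1
  refine Prod.ext rfl (LinearMap.ext fun X => ?_)
  simp [act]

lemma adm_L {h : G} (hh : h ∈ H) : Adm κ x F H (Lop h) (cutH F h) := adm_of fun ω hω => by
  convert mem_Sp (κ := κ) (x := x) (F := F) (ω := mulL h ω) ?_ using 1
  · cases ω <;> refine Prod.ext ?_ (LinearMap.ext fun X => ?_) <;>
      simp [act, Psi, Gp, mulL, Lop_mul, cutH_mul, mul_assoc, add_assoc]
  · cases ω <;> simp_all [mulL, jumps, mul_mem]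

lemma adm_Tp (t : T) : Adm κ x F H (Tp κ x t) 0 := adm_of fun ω hω => by
  convert mem_Sp (κ := κ) (x := x) (F := F) (ω := cons 1 t ω) ?_ using 1
  · refine Prod.ext ?_ (LinearMap.ext fun X => ?_) <;> simp [act, Psi, Gp, cutH_one]
  · simpa [jumps, one_mem] using hω

open Classical in
lemma an_L_cr (t t' : T) (g : G) :
    (an t * Lop g * cr t' : Op G T) = (if g = 1 ∧ t = t' then (1 : ℂ) else 0) • 1 :=
  op_ext fun ξ w => by
    by_cases h : g = 1 ∧ t = t' <;> simp [mulL, cr_cons, h]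

lemma adm_an (t : T) : Adm κ x F H (an t) 0 := by
  classical
  have h0 : ∀ (a g : G) (ξ : l2 (W G T)) (X : Op G T), cutH F g ξ (X * (an t * Lop a)) = 0 := by
    intro a g ξ X
    simp only [cutH_apply, op_mul, Lop_vac, Lop_dl, mulL, an_dl_nil, map_zero,
      LinearMap.zero_apply, sub_zero]
  have key : ∀ ω : W G T, (∀ γ ∈ ω.jumps, γ ∈ H) → ∀ a : G,
      act (an t * Lop a) 0 (Psi κ x ω, Gp κ x F ω) ∈ Sp κ x F H := by
    intro ω
    induction ω with
    | nil g =>
      intro _ a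
      convert zero_mem (Sp κ x F H) using 1
      refine Prod.ext ?_ (LinearMap.ext fun X => ?_)
      · simp [act, Psi, Lop_vac, Lop_dl, mulL, an_dl_nil]
      · simpa [act, Gp, ← mul_assoc] using h0 a g vac X
    | cons g t' w ih =>
      intro hω a
      have hw : ∀ γ ∈ w.jumps, γ ∈ H := fun γ hγ => hω γ (by simp [jumps, hγ])
      have e : (an t * Lop a * (Lop g * Tp κ x t') : Op G T) =
          κ t' • (an t * Lop (a * g * x t')) +
            (if a * g = 1 ∧ t = t' then (1 : ℂ) else 0) • 1 := by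
        rw [← an_L_cr]
        simp [Tp, Lop_mul, mul_add, mul_assoc]
      convert add_mem (Submodule.smul_mem _ (κ t') (ih hw (a * g * x t')))
        (Submodule.smul_mem _ (if a * g = 1 ∧ t = t' then (1 : ℂ) else 0) (mem_Sp hw)) using 1
      refine Prod.ext ?_ (LinearMap.ext fun X => ?_)
      · exact DFunLike.congr_fun e (Psi κ x w)
      · simp only [act, Gp, LinearMap.coe_mk, AddHom.coe_mk, LinearMap.zero_apply, zero_add,
          LinearMap.comp_apply, LinearMap.mulRight_apply, LinearMap.add_apply, h0, mul_assoc X, e,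
          mul_add, mul_smul_comm, map_add, map_smul, mul_one, Prod.snd_add, Prod.smul_snd,
          LinearMap.smul_apply]
  exact adm_of fun ω hω => by simpa using key ω hω 1

open Classical in
/-- On the span, the total cut is the inner product with a fixed vector. -/
lemma Sp_inner {f : G → ℤ} (hf : ∀ g, F.1 g = f g) {c : W G T → ℤ}
    (hc : ∀ ω : W G T, (∀ γ ∈ ω.jumps, γ ∈ H) → W.sub x c ω =
      if ω.prod x = 1 then ((W.steps x 1 ω).map fun e => f e.1 - f e.2).sum else 0)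
    {v : l2 (W G T)} (hv : ∀ w, conj (v w) = wt κ w * c w) :
    ∀ p ∈ Sp κ x F H, p.2 1 = ⟪v, p.1⟫_ℂ := by
  intro p hp
  induction hp using Submodule.span_induction with
  | mem p hp =>
    obtain ⟨ω, hω, rfl⟩ := hp
    have := Gp_Lop κ x F ω 1
    rw [Lop_one] at this
    simp only [this, inner_Psi κ x ω v c 1 (by simpa using hv), hc ω hω, one_mul]
    split_ifs
    · simp [hf, Function.comp_def]
    · simp
  | zero => simp
  | add p q _ _ hp hq => simp [hp, hq]
  | smul a p _ hp => simp [hp]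

omit [Group G] in
lemma exists_vec {θ M : ℝ} (hκ : ∀ t, ‖κ t‖ ≤ θ) {c : W G T → ℤ}
    (hc : ∀ S : Finset (W G T), ∑ ω ∈ S, θ ^ ω.len * |(c ω : ℝ)| ≤ M) :
    ∃ v : l2 (W G T), ‖v‖ ≤ M ∧ ∀ w, conj (v w) = wt κ w * c w := by
  have hM : 0 ≤ M := by simpa using hc ∅
  have h : ∀ S : Finset (W G T), ∑ w ∈ S, ‖conj (wt κ w * c w)‖ ^ (2 : ENNReal).toReal ≤
      M ^ (2 : ENNReal).toReal := by
    intro S
    simp only [ENNReal.toReal_ofNat, Real.rpow_ofNat]
    refine (Finset.sum_sq_le_sq_sum_of_nonneg fun _ _ => norm_nonneg _).trans ?_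
    refine pow_le_pow_left₀ (by positivity) (le_trans (Finset.sum_le_sum fun w _ => ?_) (hc S)) 2
    rw [Complex.norm_conj, norm_mul, Complex.norm_intCast]
    exact mul_le_mul_of_nonneg_right (norm_wt_le κ hκ w) (abs_nonneg _)
  refine ⟨⟨fun w => conj (wt κ w * c w), memℓp_gen' h⟩, ?_, fun w => ?_⟩
  · exact lp.norm_le_of_forall_sum_le (by simp) hM h
  · exact Complex.conj_conj _

end Psi

end Crest.Agent.R89
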