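import Crest.Agent.R89.Defs
import Crest.Agent.R194.L2

/-! Row 89: weighted pull-back operators on `ℓ²`. -/

set_option autoImplicit false

namespace Crest.Agent.R89

open Crest.Agent.R194 Function
open scoped InnerProductSpace ComplexConjugate

/-- `ℓ²(α)`. -/
abbrev l2 (α : Type) : Type := lp (fun _ : α => ℂ) 2

variable {α β : Type}

open Classical in
/-- The basis vector. -/
noncomputable def dl (a : α) : l2 α := lp.single 2 a 1

open Classical in
lemma dl_apply (a b : α) : dl a b = if b = a then 1 else 0 := by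
  simp [dl, lp.single_apply, Pi.single_apply]

@[simp] lemma dl_self (a : α) : dl a a = 1 := by simp [dl_apply]

lemma dl_ne {a b : α} (h : b ≠ a) : dl a b = 0 := by simp [dl_apply, h]

lemma inner_dl (a : α) (ξ : l2 α) : ⟪dl a, ξ⟫_ℂ = ξ a := by
  classical
  simp [dl, lp.inner_single_left]

lemma l2_ext {ξ ζ : l2 α} (h : ∀ a, ξ a = ζ a) : ξ = ζ := lp.ext (funext h)

@[simp] lemma l2_add (ξ ζ : l2 α) (a : α) : (ξ + ζ) a = ξ a + ζ a := rfl
@[simp] lemma l2_sub (ξ ζ : l2 α) (a : α) : (ξ - ζ) a = ξ a - ζ a := rfl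
@[simp] lemma l2_smul (c : ℂ) (ξ : l2 α) (a : α) : (c • ξ) a = c * ξ a := rfl
@[simp] lemma l2_zero (a : α) : (0 : l2 α) a = 0 := rfl
@[simp] lemma l2_star (ξ : l2 α) (a : α) : (star ξ) a = conj (ξ a) := rfl

lemma eq_zero_of_dl {F : Type*} [NormedAddCommGroup F] [NormedSpace ℂ F] {x : l2 α →L[ℂ] F}
    (h : ∀ a, x (dl a) = 0) : x = 0 := by
  classical
  refine lp.ext_continuousLinearMap (by simp) fun a => ?_
  ext
  simpa [dl] using h a

lemma wpull_summable {φ : α → β} (hφ : Injective φ) {m : α → ℂ} (hm : ∀ a, ‖m a‖ ≤ 1)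
    (ξ : l2 β) : Summable fun a => ‖m a * ξ (φ a)‖ ^ 2 :=
  Summable.of_nonneg_of_le (fun _ => by positivity)
    (fun a => by
      rw [norm_mul]
      exact pow_le_pow_left₀ (by positivity) (mul_le_of_le_one_left (norm_nonneg _) (hm a)) 2)
    ((lp2_summable ξ).comp_injective hφ)

/-- The weighted pull-back `ξ ↦ m · (ξ ∘ φ)` as a linear map. -/
noncomputable def wpullLin {φ : α → β} (hφ : Injective φ) {m : α → ℂ} (hm : ∀ a, ‖m a‖ ≤ 1) :
    l2 β →ₗ[ℂ] l2 α where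
  toFun ξ := ⟨fun a => m a * ξ (φ a), memℓp2_of_summable (wpull_summable hφ hm ξ)⟩
  map_add' ξ ζ := l2_ext fun a => by
    change m a * (ξ (φ a) + ζ (φ a)) = m a * ξ (φ a) + m a * ζ (φ a)
    ring
  map_smul' c ξ := l2_ext fun a => by
    change m a * (c * ξ (φ a)) = c * (m a * ξ (φ a))
    ring

lemma norm_wpullLin_le {φ : α → β} (hφ : Injective φ) {m : α → ℂ} (hm : ∀ a, ‖m a‖ ≤ 1)
    (ξ : l2 β) : ‖wpullLin hφ hm ξ‖ ≤ 1 * ‖ξ‖ := by
  rw [one_mul, ← sq_le_sq₀ (norm_nonneg _) (norm_nonneg _), lp2_norm_sq, lp2_norm_sq]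
  refine (wpull_summable hφ hm ξ).tsum_le_tsum_of_inj φ hφ (fun _ _ => by positivity)
    (fun a => ?_) (lp2_summable ξ)
  change ‖m a * ξ (φ a)‖ ^ 2 ≤ _
  rw [norm_mul]
  exact pow_le_pow_left₀ (by positivity) (mul_le_of_le_one_left (norm_nonneg _) (hm a)) 2

/-- The weighted pull-back `ξ ↦ m · (ξ ∘ φ)`. -/
noncomputable def wpull {φ : α → β} (hφ : Injective φ) {m : α → ℂ} (hm : ∀ a, ‖m a‖ ≤ 1) :
    l2 β →L[ℂ] l2 α := (wpullLin hφ hm).mkContinuous 1 (norm_wpullLin_le hφ hm)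

@[simp] lemma wpull_apply {φ : α → β} (hφ : Injective φ) {m : α → ℂ} (hm : ∀ a, ‖m a‖ ≤ 1)
    (ξ : l2 β) (a : α) : wpull hφ hm ξ a = m a * ξ (φ a) := rfl

/-- The pull-back `ξ ↦ ξ ∘ φ`. -/
noncomputable def pull {φ : α → β} (hφ : Injective φ) : l2 β →L[ℂ] l2 α :=
  wpull hφ (m := fun _ => 1) (by simp)

@[simp] lemma pull_apply {φ : α → β} (hφ : Injective φ) (ξ : l2 β) (a : α) :
    pull hφ ξ a = ξ (φ a) := by simp [pull]

lemma norm_pull_le {φ : α → β} (hφ : Injective φ) : ‖pull hφ‖ ≤ 1 :=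
  LinearMap.mkContinuous_norm_le _ zero_le_one (norm_wpullLin_le hφ _)

lemma adj_pull_apply {φ : α → β} (hφ : Injective φ) (ξ : l2 α) (a : α) :
    ContinuousLinearMap.adjoint (pull hφ) ξ (φ a) = ξ a := by
  rw [← inner_dl, ContinuousLinearMap.adjoint_inner_right, ← inner_dl]
  congr 1
  refine l2_ext fun a' => ?_
  classical
  simp [dl_apply, hφ.eq_iff]

lemma adj_pull_apply_of {φ : α → β} (hφ : Injective φ) (ξ : l2 α) {b : β} (hb : ∀ a, φ a ≠ b) :
    ContinuousLinearMap.adjoint (pull hφ) ξ b = 0 := by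
  rw [← inner_dl, ContinuousLinearMap.adjoint_inner_right]
  have : pull hφ (dl b) = 0 := l2_ext fun a => by simp [dl_ne (hb a)]
  rw [this, inner_zero_left]

end Crest.Agent.R89
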