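import Crest.Agent.R89.Conj
import Crest.Agent.R89.Comb

/-! Row 89: the hidden and visible variables in the Fock model. -/

set_option autoImplicit false

namespace Crest.Agent.R89

open Crest.OpAlg Crest.Agent.R95 Function
open scoped InnerProductSpace ComplexConjugate

section Noise
variable {G : Type} [Group G] {n : ℕ}

/-- The noise inside the variables. -/
noncomputable def Cn (i : Fin n) : Alg G (Fin n × Option Bool) := sA (i, none)

/-- The free semicircular family. -/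
noncomputable def Sn (i : Fin n) : Alg G (Fin n × Option Bool) :=
  ((Real.sqrt 2)⁻¹ : ℂ) • (sA (i, some true) + sA (i, some false))

lemma Cn_sa (i : Fin n) : IsSelfAdjoint (Cn i : Alg G _) := sA_sa _

lemma Sn_sa (i : Fin n) : IsSelfAdjoint (Sn i : Alg G _) := by
  refine IsSelfAdjoint.smul ?_ ((sA_sa _).add (sA_sa _))
  simp [IsSelfAdjoint]

lemma sd2_noise {ι : Type*} (Y B : ι → Alg G (Fin n × Option Bool)) (r : ι → Fin n) (p q : ι → ℂ)
    (hY : ∀ z, Y z = B z + p z • Cn (r z) + q z • Sn (r z)) (hB : ∀ z t, Der t (B z) 0)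
    (i : Fin n) (a b : ℂ) :
    SD2 Y (a • Cn i + b • Sn i) fun z => if r z = i then a * p z + b * q z else 0 := by
  classical
  have hd : ∀ t z, Der t (Y z) (0 + p z * (if (r z, none) = t then 1 else 0) + q z *
      (((Real.sqrt 2)⁻¹ : ℂ) * ((if (r z, some true) = t then 1 else 0) +
        if (r z, some false) = t then 1 else 0))) := fun t z => by
    rw [hY, Cn, Sn]
    convert ((hB z t).add ((der_s t _).smul _)).add ((((der_s t _).add (der_s t _)).smul _).smul _)
  have h2 : ((Real.sqrt 2 : ℂ))⁻¹ * ((Real.sqrt 2 : ℂ))⁻¹ = 1 / 2 := by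
    rw [← mul_inv, ← Complex.ofReal_mul, Real.mul_self_sqrt (by norm_num)]
    norm_num
  refine (((sd2_of_der _ Y _ (hd (i, none))).smul a).add ((((sd2_of_der _ Y _ (hd (i, some true))).add
    (sd2_of_der _ Y _ (hd (i, some false)))).smul _).smul b)).congr fun z => ?_
  by_cases h : r z = i
  · simp only [h, Prod.mk.injEq, reduceCtorEq, Option.some.injEq, and_false, if_true,
      if_false, Bool.true_eq_false, Bool.false_eq_true]
    linear_combination (2 * b * q z) * h2
  · simp [h]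

/-- The deterministic part `a u(x) + ā u(x⁻¹)`. -/
noncomputable def Bn {T : Type} (a : ℂ) (x : G) : Alg G T := a • uA x + conj a • uA x⁻¹

lemma Bn_sa {T : Type} (a : ℂ) (x : G) : IsSelfAdjoint (Bn a x : Alg G T) := by
  simp [IsSelfAdjoint, Bn, star_uA, add_comm]

lemma der_Bn {T : Type} (a : ℂ) (x : G) (t : T) : Der t (Bn a x) 0 := by
  simpa [Bn] using ((der_u t x).smul a).add ((der_u t x⁻¹).smul (conj a))

lemma norm_uA_le {T : Type} (g : G) : ‖(uA g : Alg G T)‖ ≤ 1 := norm_pull_le _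

lemma norm_Bn_le {T : Type} (a : ℂ) (x : G) : ‖(Bn a x : Alg G T)‖ ≤ 2 * ‖a‖ := by
  refine (norm_add_le _ _).trans ?_
  rw [norm_smul, norm_smul, Complex.norm_conj]
  nlinarith [norm_uA_le (T := T) x, norm_uA_le (T := T) x⁻¹, norm_nonneg a]

variable (a : Fin n → ℂ) (x : Fin n → G) (α : Fin n → ℝ)

/-- The variables. -/
noncomputable def Xn (i : Fin n) : Alg G (Fin n × Option Bool) :=
  Bn (a i) (x i) + (α i : ℂ) • Cn i

lemma Xn_sa (i : Fin n) : IsSelfAdjoint (Xn a x α i) :=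
  (Bn_sa _ _).add (IsSelfAdjoint.smul (by simp [IsSelfAdjoint]) (Cn_sa i))

lemma sd_XS (i : Fin n) : SD (trL _) (Sum.elim (Xn a x α) Sn) (Sn i)
    fun z => if z = Sum.inr i then 1 else 0 := by
  have := sd2_noise (Sum.elim (Xn a x α) Sn) (Sum.elim (fun k => Bn (a k) (x k)) 0)
    (Sum.elim id id) (Sum.elim (fun k => (α k : ℂ)) 0) (Sum.elim 0 1)
    (by rintro (k | k) <;> simp [Xn])
    (by rintro (k | k) t
        · exact der_Bn _ _ _
        · simp [Der]) i 0 1
  simp only [zero_smul, one_smul, zero_add] at this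
  exact (this.congr (by rintro (k | k) <;> simp)).sd

lemma sd_BC (i : Fin n) : SD (trL (Alg G (Fin n × Option Bool)))
    (Sum.elim (fun k => Bn (a k) (x k)) fun k => Bn (a k) (x k) + (α k : ℂ) • Cn k) (Cn i)
    fun z => if z = Sum.inr i then (α i : ℂ) else 0 := by
  have := sd2_noise (Sum.elim (fun k => Bn (a k) (x k)) fun k => Bn (a k) (x k) + (α k : ℂ) • Cn k)
    (Sum.elim (fun k => Bn (a k) (x k)) fun k => Bn (a k) (x k))
    (Sum.elim id id) (Sum.elim 0 fun k => (α k : ℂ)) 0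
    (by rintro (k | k) <;> simp)
    (by rintro (k | k) t <;> exact der_Bn _ _ _) i 1 0
  simp only [zero_smul, one_smul, add_zero] at this
  refine (this.congr ?_).sd
  rintro (k | k)
  · simp
  · by_cases h : k = i <;> simp [h]

lemma sd2_heat {s : ℝ} (hs : 0 ≤ s) (i : Fin n) :
    SD2 (heatTuple (Xn a x α) Sn s) ((α i : ℂ) • Cn i + (Real.sqrt s : ℂ) • Sn i)
      fun k => if k = i then ((α i ^ 2 + s : ℝ) : ℂ) else 0 := by
  refine (sd2_noise (heatTuple (Xn a x α) Sn s) (fun k => Bn (a k) (x k)) id (fun k => (α k : ℂ))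
    (fun _ => (Real.sqrt s : ℂ)) (fun _ => rfl) (fun _ _ => der_Bn _ _ _) i _ _).congr fun k => ?_
  by_cases h : k = i
  · simp only [id, h, if_true, ← Complex.ofReal_mul, Real.mul_self_sqrt hs]
    push_cast
    ring
  · simp [h]

lemma sd2_self (β : ℝ) {s : ℝ} (hs : 0 ≤ s) (i : Fin n) :
    SD2 (fun _ : Unit => ((β : ℂ) • Cn i + (Real.sqrt s : ℂ) • Sn i : Alg G _))
      ((β : ℂ) • Cn i + (Real.sqrt s : ℂ) • Sn i) fun _ => ((β ^ 2 + s : ℝ) : ℂ) := by
  refine (sd2_noise _ (fun _ => 0) (fun _ => i) (fun _ => (β : ℂ))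
    (fun _ => (Real.sqrt s : ℂ)) (fun _ => by simp) (fun _ _ => by simp [Der]) i _ _).congr
    fun k => ?_
  simp only [if_true, ← Complex.ofReal_mul, Real.mul_self_sqrt hs]
  push_cast
  ring

lemma noise_sa (β s : ℝ) (i : Fin n) :
    IsSelfAdjoint ((β : ℂ) • Cn i + (Real.sqrt s : ℂ) • Sn i : Alg G _) :=
  (IsSelfAdjoint.smul (by simp [IsSelfAdjoint]) (Cn_sa i)).add
    (IsSelfAdjoint.smul (by simp [IsSelfAdjoint]) (Sn_sa i))

lemma bd_heat {s : ℝ} (hs : 0 < s) (i : Fin n) :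
    Bd (heatTuple (Xn a x α) Sn s) i (1 / (α i ^ 2 + s)) :=
  bd_of_sd _ i (noise_sa (α i) s i) (by positivity)
    (by simpa [spl_cons, τ_one] using sd2_self (G := G) (α i) hs.le i 1 1 [()])
    (sd2_heat a x α hs.le i).sd

/-- The group letters of the types. -/
def xT : Fin n × Option Bool → G
  | (_, none) => 1
  | (i, some true) => x i
  | (i, some false) => (x i)⁻¹

/-- The improved bound for the visible variables. -/
lemma bd_vis (H : Subgroup G) (vis : Fin n → Prop) (j : Fin n) (hj : vis j)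
    (hav : ∀ i, vis i → a i = 1 / 2) (f : G → ℤ) (hf : ∀ g, |f g| ≤ 1)
    (hx : ∀ i, vis i → x i ∈ H ∧ ∀ γ, (γ = 1 ∧ i = j → f (γ * x i) - f γ = 1) ∧
      (¬ (γ = 1 ∧ i = j) → f (γ * x i) - f γ = 0))
    {θ M : ℝ} {c : W G (Fin n × Option Bool) → ℤ}
    (hc : ∀ S : Finset (W G (Fin n × Option Bool)), ∑ ω ∈ S, θ ^ ω.len * |(c ω : ℝ)| ≤ M)
    (hc' : ∀ ω : W G (Fin n × Option Bool), (∀ γ ∈ ω.jumps, γ ∈ H) →
      (ω.prod (xT x) = 1 → W.sub (xT x) c ω =
        ((W.steps (xT x) 1 ω).map fun e => f e.1 - f e.2).sum) ∧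
      (ω.prod (xT x) ≠ 1 → W.sub (xT x) c ω = 0))
    {s : ℝ} (hs : 0 < s) (hθ : 0 ≤ θ) (ha : ∀ i, ¬ vis i → 2 * ‖a i‖ ≤ θ * Real.sqrt s) :
    Bd (heatTuple (Xn a x α) Sn s) j (3 * (M + 1) ^ 2 + 3 / (4 * (α j ^ 2 + s))) := by
  classical
  let F : BF G := ⟨fun g => f g, fun g => by
    rw [Complex.norm_intCast]; exact_mod_cast hf g⟩
  let ah : Fin n → ℂ := fun i => if vis i then 0 else a i
  let b : ℂ := (Real.sqrt s : ℂ) * (Real.sqrt 2 : ℂ)⁻¹
  have hs' : 0 < Real.sqrt s := Real.sqrt_pos.mpr hs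
  have hb : b ≠ 0 := by simp [b, hs'.ne']
  let κ : Fin n × Option Bool → ℂ := fun t => match t with
    | (_, none) => 0
    | (i, some true) => b⁻¹ * ah i
    | (i, some false) => b⁻¹ * conj (ah i)
  have hah : ∀ i, ‖b⁻¹‖ * ‖ah i‖ ≤ θ := fun i => by
    by_cases h : vis i
    · simp [ah, h, hθ]
    · have h2 : Real.sqrt 2 ≤ 2 := Real.sqrt_le_iff.mpr (by norm_num)
      have h3 : ‖b⁻¹‖ = Real.sqrt 2 / Real.sqrt s := by
        simp [b, div_eq_mul_inv, abs_of_nonneg (Real.sqrt_nonneg _)]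
      simp only [ah, h, if_false, h3]
      rw [div_mul_eq_mul_div, div_le_iff₀ hs']
      nlinarith [ha i h, norm_nonneg (a i)]
  have hκ : ∀ t, ‖κ t‖ ≤ θ := by
    rintro ⟨i, _ | _ | _⟩
    · simpa [κ] using hθ
    · simpa only [κ, norm_mul, Complex.norm_conj] using hah i
    · simpa only [κ, norm_mul] using hah i
  obtain ⟨v, hvM, hv⟩ := exists_vec hκ hc
  have hSp := Sp_inner (κ := κ) (x := xT x) (F := F) (H := H) (f := f) (fun _ => rfl)
    (fun ω hω => by
      split_ifs with h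
      exacts [(hc' ω hω).1 h, (hc' ω hω).2 h]) hv
  have := bd_improved (κ := κ) (x := xT x) (F := F) (H := H) (heatTuple (Xn a x α) Sn s) j x
    (fun i => if vis i then 1 / 2 else 0)
    (fun i => Bn (ah i) (x i) + (α i : ℂ) • Cn i + (Real.sqrt s : ℂ) • Sn i)
    (fun i => by
      by_cases h : vis i
      · simp [heatTuple, Xn, Bn, ah, h, hav i h, add_assoc, map_ofNat]
      · simp [heatTuple, Xn, ah, h])
    (fun i => by
      have h0 : ∀ t, Adm κ (xT x) F H (Tp κ (xT x) t + an t) (0 + 0) :=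
        fun t => (adm_Tp t).add (adm_an t)
      convert (((h0 (i, some true)).smul b).add ((h0 (i, some false)).smul b)).add
        ((h0 (i, none)).smul (α i : ℂ)) using 1
      · simp only [Bn, Cn, Sn, Tp, κ, xT, smul_add, smul_smul, mul_inv_cancel_left₀ hb]
        simp [Sop, b, -Complex.coe_smul]
        abel
      · simp)
    (fun i => by
      by_cases h : vis i
      · refine Or.inr ⟨(hx i h).1, fun γ => ?_⟩
        simp only [F, ← Int.cast_sub]
        split_ifs with h'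
        · simp [((hx i h).2 γ).1 h']
        · simp [((hx i h).2 γ).2 h']
      · simp [h])
    (by simp [hj]) hSp hvM (noise_sa (α j) s j) (σ := α j ^ 2 + s) (by positivity)
    (by convert sd2_heat a x α hs.le j) (sd2_self (α j) hs.le j)
  convert this

end Noise

end Crest.Agent.R89
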